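import Mathlib

/-!
P112 / H310: dyadic intervals, regions `Reg S f r`, tubes; basic measure facts.
-/

namespace Vale.Agent.P112.H310

open MeasureTheory Set
open scoped ENNReal BigOperators

/-- dyadic interval of length `2^-k` -/
def D (k : ℕ) (m : ℤ) : Set ℝ := Set.Ico ((m : ℝ) / 2 ^ k) (((m : ℝ) + 1) / 2 ^ k)

theorem mem_D {k : ℕ} {m : ℤ} {x : ℝ} : x ∈ D k m ↔ ⌊x * 2 ^ k⌋ = m := by
  have h : (0 : ℝ) < 2 ^ k := by positivity
  rw [D, Set.mem_Ico, Int.floor_eq_iff, div_le_iff₀ h, lt_div_iff₀ h]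

theorem measurableSet_D (k : ℕ) (m : ℤ) : MeasurableSet (D k m) := measurableSet_Ico

theorem volume_D (k : ℕ) (m : ℤ) : volume (D k m) = ENNReal.ofReal ((2 : ℝ)⁻¹ ^ k) := by
  rw [D, Real.volume_Ico]
  congr 1
  rw [inv_pow]
  have h : (0 : ℝ) < 2 ^ k := by positivity
  field_simp
  ring

theorem D_subset_of_mem {k k' : ℕ} {m m' : ℤ} {x : ℝ} (hk : k' ≤ k) (h : x ∈ D k m)
    (h' : x ∈ D k' m') : D k m ⊆ D k' m' := by
  intro y hy
  rw [mem_D] at *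
  have key : ∀ z : ℝ, ⌊z * 2 ^ k'⌋ = ⌊z * 2 ^ k⌋ / 2 ^ (k - k') := by
    intro z
    have e : z * 2 ^ k' = (z * 2 ^ k) / ((2 ^ (k - k') : ℕ) : ℝ) := by
      have : (2 : ℝ) ^ k = 2 ^ k' * 2 ^ (k - k') := by
        rw [← pow_add]; congr 1; omega
      rw [this]; push_cast
      have h2 : (2 : ℝ) ^ (k - k') ≠ 0 := by positivity
      field_simp
    rw [e, Int.floor_div_natCast]
    push_cast
    rfl
  rw [key, hy, ← h, ← key, h']

theorem abs_sub_le_of_mem_D {k : ℕ} {m : ℤ} {x y : ℝ} (hx : x ∈ D k m) (hy : y ∈ D k m) :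
    |x - y| ≤ (2 : ℝ)⁻¹ ^ k := by
  rw [D, Set.mem_Ico] at hx hy
  have h : (0 : ℝ) < 2 ^ k := by positivity
  have e : (2 : ℝ)⁻¹ ^ k = ((m : ℝ) + 1) / 2 ^ k - (m : ℝ) / 2 ^ k := by
    rw [inv_pow]; field_simp; ring
  rw [e, abs_le]
  constructor <;> linarith [hx.1, hx.2, hy.1, hy.2]

theorem D_split (k : ℕ) (m : ℤ) : D k m = D (k + 1) (2 * m) ∪ D (k + 1) (2 * m + 1) := by
  have h : (0 : ℝ) < 2 ^ k := by positivity
  ext x
  simp only [D, Set.mem_union, Set.mem_Ico]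
  have h1 : ((2 * m : ℤ) : ℝ) / 2 ^ (k + 1) = (m : ℝ) / 2 ^ k := by
    push_cast; rw [pow_succ]; field_simp
  have h2 : (((2 * m + 1 : ℤ) : ℝ) + 1) / 2 ^ (k + 1) = ((m : ℝ) + 1) / 2 ^ k := by
    push_cast; rw [pow_succ]; field_simp; ring
  have h3 : (((2 * m : ℤ) : ℝ) + 1) / 2 ^ (k + 1) = ((2 * m + 1 : ℤ) : ℝ) / 2 ^ (k + 1) := by
    push_cast; rfl
  rw [h1, h2, h3]
  have h4 : (m : ℝ) / 2 ^ k ≤ ((2 * m + 1 : ℤ) : ℝ) / 2 ^ (k + 1) := by
    rw [← h1]; push_cast; gcongr; linarith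
  have h5 : ((2 * m + 1 : ℤ) : ℝ) / 2 ^ (k + 1) ≤ ((m : ℝ) + 1) / 2 ^ k := by
    rw [← h2]; push_cast; gcongr; linarith
  constructor
  · rintro ⟨a, b⟩
    by_cases hc : x < ((2 * m + 1 : ℤ) : ℝ) / 2 ^ (k + 1)
    · exact Or.inl ⟨a, hc⟩
    · exact Or.inr ⟨not_lt.1 hc, b⟩
  · rintro (⟨a, b⟩ | ⟨a, b⟩)
    · exact ⟨a, lt_of_lt_of_le b h5⟩
    · exact ⟨h4.trans a, b⟩

theorem D_disj (k : ℕ) {m m' : ℤ} (h : m ≠ m') : Disjoint (D k m) (D k m') := by
  rw [Set.disjoint_left]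
  intro x hx hx'
  rw [mem_D] at hx hx'
  exact h (hx.symm.trans hx')

/-- the region of vertical half-height `r` around the graph of `f` over `S` -/
def Reg (S : Set ℝ) (f : ℝ → ℝ) (r : ℝ) : Set (ℝ × ℝ) := {p | p.1 ∈ S ∧ |p.2 - f p.1| ≤ r}

theorem measurableSet_Reg {S : Set ℝ} (hS : MeasurableSet S) {f : ℝ → ℝ} (hf : Measurable f)
    (r : ℝ) : MeasurableSet (Reg S f r) := by
  have h1 : MeasurableSet {p : ℝ × ℝ | p.1 ∈ S} := measurable_fst hS
  have h2 : MeasurableSet {p : ℝ × ℝ | |p.2 - f p.1| ≤ r} := by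
    apply measurableSet_le _ measurable_const
    exact (measurable_snd.sub (hf.comp measurable_fst)).abs
  exact h1.inter h2

open Classical in
theorem section_Reg (S : Set ℝ) (f : ℝ → ℝ) (r x : ℝ) :
    (Prod.mk x ⁻¹' (Reg S f r)) = if x ∈ S then Metric.closedBall (f x) r else ∅ := by
  ext y
  by_cases h : x ∈ S
  · simp [Reg, h, Metric.mem_closedBall, Real.dist_eq]
  · simp [Reg, h]

theorem volume_Reg {S : Set ℝ} (hS : MeasurableSet S) {f : ℝ → ℝ} (hf : Measurable f)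
    (r : ℝ) : volume (Reg S f r) = volume S * ENNReal.ofReal (2 * r) := by
  classical
  rw [Measure.volume_eq_prod, Measure.prod_apply (measurableSet_Reg hS hf r)]
  have : ∀ x, volume (Prod.mk x ⁻¹' (Reg S f r)) =
      S.indicator (fun _ => ENNReal.ofReal (2 * r)) x := by
    intro x
    rw [section_Reg]
    by_cases h : x ∈ S
    · simp [h, Real.volume_closedBall, ENNReal.ofReal_mul]
    · simp [h]
  simp_rw [this]
  rw [lintegral_indicator hS, lintegral_const, Measure.restrict_apply MeasurableSet.univ,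
    Set.univ_inter, mul_comm]

end Vale.Agent.P112.H310
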