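import Vale.Agent.P112.H310.Main

/-!
P112 / H310 / [KTD]: corollaries of `Sys.kakeya'` for dilated tubes and for weights.

`S.RD κ i` = the tube `i` dilated by `2^κ` in both directions (restricted to `x ∈ [0,1)`).
-/

namespace Vale.Agent.P112.H310

open MeasureTheory Set
open scoped ENNReal BigOperators

/-- the `1/3`-trick: an interval of length `≤ 2^-k/3` is contained in a dyadic interval of
length `2^-k` of the standard grid or of the grid translated by `1/3`. -/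
theorem third_trick (k : ℕ) (a c : ℝ) (h : 3 * (c - a) ≤ (2 : ℝ)⁻¹ ^ k) :
    ∃ τ : ℝ, (τ = 0 ∨ τ = 1 / 3) ∧ ∃ m : ℤ, ∀ x ∈ Set.Ico a c, x - τ ∈ D k m := by
  have h2 : (0 : ℝ) < 2 ^ k := by positivity
  have hk : (2 : ℝ)⁻¹ ^ k * 2 ^ k = 1 := by rw [← mul_pow]; norm_num
  by_cases hc : c ≤ ((⌊a * 2 ^ k⌋ : ℝ) + 1) / 2 ^ k
  · refine ⟨0, Or.inl rfl, ⌊a * 2 ^ k⌋, fun x hx => ?_⟩
    rw [sub_zero, D, Set.mem_Ico]
    refine ⟨?_, lt_of_lt_of_le hx.2 hc⟩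
    rw [div_le_iff₀ h2]
    exact (Int.floor_le _).trans (mul_le_mul_of_nonneg_right hx.1 h2.le)
  · rw [not_le, div_lt_iff₀ h2] at hc
    set n : ℤ := ⌊a * 2 ^ k⌋ with hn
    -- the grid point `(n+1)/2^k` lies in `(a,c)`; use the shifted grid
    refine ⟨1 / 3, Or.inr rfl, ⌊(a - 1 / 3) * 2 ^ k⌋, fun x hx => ?_⟩
    set q : ℤ := ⌊(a - 1 / 3) * 2 ^ k⌋ with hq
    rw [D, Set.mem_Ico]
    have hq1 : (q : ℝ) ≤ (a - 1 / 3) * 2 ^ k := Int.floor_le _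
    have hq2 : (a - 1 / 3) * 2 ^ k < q + 1 := Int.lt_floor_add_one _
    have hn2 : a * 2 ^ k < n + 1 := Int.lt_floor_add_one _
    have hn1 : (n : ℝ) ≤ a * 2 ^ k := Int.floor_le _
    have hca : c * 2 ^ k - a * 2 ^ k ≤ 1 / 3 := by
      have : 3 * (c - a) * 2 ^ k ≤ (2 : ℝ)⁻¹ ^ k * 2 ^ k := mul_le_mul_of_nonneg_right h h2.le
      rw [hk] at this
      linarith
    refine ⟨?_, ?_⟩
    · rw [div_le_iff₀ h2]
      exact hq1.trans (mul_le_mul_of_nonneg_right (by linarith [hx.1]) h2.le)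
    · rw [lt_div_iff₀ h2]
      -- integer argument
      have hxc : x * 2 ^ k < c * 2 ^ k := mul_lt_mul_of_pos_right hx.2 h2
      by_contra hcon
      rw [not_lt] at hcon
      -- (x - 1/3) 2^k ≥ q+1 ; so q + 1 + 2^k/3 ∈ (a 2^k, c 2^k) and n+1 ∈ (a 2^k, c 2^k)
      have e1 : (q : ℝ) + 1 + 2 ^ k / 3 ≤ x * 2 ^ k := by nlinarith
      have e2 : a * 2 ^ k < (q : ℝ) + 1 + 2 ^ k / 3 := by nlinarith
      have d1 : |((q : ℝ) + 1 + 2 ^ k / 3) - (n + 1)| < 1 / 3 := by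
        rw [abs_lt]; constructor <;> linarith
      have d2 : |(3 * q + 2 ^ k - 3 * n : ℝ)| < 1 := by
        have : (3 * q + 2 ^ k - 3 * n : ℝ) = 3 * (((q : ℝ) + 1 + 2 ^ k / 3) - (n + 1)) := by ring
        rw [this, abs_mul]
        norm_num
        linarith
      have d3 : |(3 * q + 2 ^ k - 3 * n : ℤ)| < 1 := by
        have : (((|(3 * q + 2 ^ k - 3 * n : ℤ)| : ℤ)) : ℝ) < ((1 : ℤ) : ℝ) := by
          push_cast; exact d2
        exact_mod_cast this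
      have d4 : (3 * q + 2 ^ k - 3 * n : ℤ) = 0 := Int.abs_lt_one_iff.1 d3
      have d5 : (3 : ℤ) ∣ 2 ^ k := ⟨n - q, by linarith⟩
      have d6 : (3 : ℤ) ∣ 2 := Int.Prime.dvd_pow' (by norm_num) d5
      norm_num at d6

namespace Sys

variable {ι : Type*} (S : Sys ι)

/-- the tube `i` dilated by `2^κ` (in `x ∈ [0,1)`) -/
def RD (κ : ℕ) (i : ι) : Set (ℝ × ℝ) :=
  {p | p.1 ∈ Set.Ico (0 : ℝ) 1 ∧
    ((S.m i : ℝ) / 2 ^ S.k i - 2 ^ κ * S.l i ≤ p.1 ∧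
      p.1 < ((S.m i : ℝ) + 1) / 2 ^ S.k i + 2 ^ κ * S.l i) ∧
    |p.2 - S.line i p.1| ≤ 2 ^ κ * S.w}

theorem RD_meas (κ : ℕ) (i : ι) : MeasurableSet (S.RD κ i) := by
  have h1 : MeasurableSet {p : ℝ × ℝ | p.1 ∈ Set.Ico (0 : ℝ) 1} := measurable_fst measurableSet_Ico
  have h2 : MeasurableSet {p : ℝ × ℝ | ((S.m i : ℝ) / 2 ^ S.k i - 2 ^ κ * S.l i ≤ p.1 ∧
      p.1 < ((S.m i : ℝ) + 1) / 2 ^ S.k i + 2 ^ κ * S.l i)} :=
    measurable_fst (measurableSet_Ico (a := (S.m i : ℝ) / 2 ^ S.k i - 2 ^ κ * S.l i)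
      (b := ((S.m i : ℝ) + 1) / 2 ^ S.k i + 2 ^ κ * S.l i))
  have h3 : MeasurableSet {p : ℝ × ℝ | |p.2 - S.line i p.1| ≤ 2 ^ κ * S.w} := by
    apply measurableSet_le _ measurable_const
    exact (measurable_snd.sub ((S.line_meas i).comp measurable_fst)).abs
  exact h1.inter (h2.inter h3)

/-- the level of the enlarged base interval -/
def kd (κ : ℕ) (i : ι) : ℕ := S.k i - (κ + 4)

theorem ld_le (κ : ℕ) (i : ι) : (2 : ℝ)⁻¹ ^ S.kd κ i ≤ 2 ^ (κ + 4) * S.l i := by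
  unfold kd l
  rcases le_total (κ + 4) (S.k i) with h | h
  · obtain ⟨n, hn⟩ := Nat.exists_eq_add_of_le h
    rw [hn, Nat.add_sub_cancel_left, pow_add (2 : ℝ)⁻¹ (κ + 4) n, ← mul_assoc, ← mul_pow]
    norm_num
  · rw [Nat.sub_eq_zero_of_le h, pow_zero]
    obtain ⟨n, hn⟩ := Nat.exists_eq_add_of_le h
    rw [hn, pow_add (2 : ℝ) (S.k i) n, mul_assoc, mul_comm ((2 : ℝ) ^ n), ← mul_assoc, ← mul_pow]
    norm_num
    exact one_le_pow₀ (by norm_num)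

/-- choice of the enlarged dyadic interval -/
theorem exists_grid (κ : ℕ) (i : ι) (hI : S.I i ⊆ Set.Ico (0 : ℝ) 1) :
    ∃ τ : ℝ, (τ = 0 ∨ τ = 1 / 3) ∧ ∃ m : ℤ, (∀ p ∈ S.RD κ i, p.1 - τ ∈ D (S.kd κ i) m) ∧
      (∀ x ∈ S.I i, x - τ ∈ D (S.kd κ i) m) := by
  have hl := S.l_pos i
  have h2 : (0 : ℝ) < 2 ^ S.k i := by positivity
  have hll : ((S.m i : ℝ) + 1) / 2 ^ S.k i = (S.m i : ℝ) / 2 ^ S.k i + S.l i := by
    unfold l
    rw [inv_pow]; field_simp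
  have hκ : (1 : ℝ) ≤ 2 ^ κ := one_le_pow₀ (by norm_num)
  rcases le_total (κ + 4) (S.k i) with h | h
  · have hle : 16 * (2 ^ κ * S.l i) = (2 : ℝ)⁻¹ ^ S.kd κ i := by
      unfold kd l
      obtain ⟨n, hn⟩ := Nat.exists_eq_add_of_le h
      rw [hn, Nat.add_sub_cancel_left, pow_add (2 : ℝ)⁻¹ (κ + 4) n, pow_add (2 : ℝ)⁻¹ κ 4]
      have : (2 : ℝ) ^ κ * (2 : ℝ)⁻¹ ^ κ = 1 := by rw [← mul_pow]; norm_num
      calc 16 * ((2 : ℝ) ^ κ * ((2 : ℝ)⁻¹ ^ κ * (2 : ℝ)⁻¹ ^ 4 * (2 : ℝ)⁻¹ ^ n))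
          = ((2 : ℝ) ^ κ * (2 : ℝ)⁻¹ ^ κ) * (16 * (2 : ℝ)⁻¹ ^ 4) * (2 : ℝ)⁻¹ ^ n := by ring
        _ = _ := by rw [this]; norm_num
    obtain ⟨τ, hτ, m, hm⟩ := third_trick (S.kd κ i)
      ((S.m i : ℝ) / 2 ^ S.k i - 2 ^ κ * S.l i)
      (((S.m i : ℝ) + 1) / 2 ^ S.k i + 2 ^ κ * S.l i)
      (by rw [hll, ← hle]; nlinarith)
    refine ⟨τ, hτ, m, fun p hp => hm _ ⟨hp.2.1.1, hp.2.1.2⟩, fun x hx => hm _ ?_⟩
    have hx' : x ∈ Set.Ico ((S.m i : ℝ) / 2 ^ S.k i) (((S.m i : ℝ) + 1) / 2 ^ S.k i) := hx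
    have : 0 ≤ 2 ^ κ * S.l i := by positivity
    exact ⟨by linarith [hx'.1], by linarith [hx'.2]⟩
  · refine ⟨0, Or.inl rfl, 0, ?_, ?_⟩
    · intro p hp
      have : S.kd κ i = 0 := Nat.sub_eq_zero_of_le h
      rw [this, sub_zero, D]
      simpa using hp.1
    · intro x hx
      have : S.kd κ i = 0 := Nat.sub_eq_zero_of_le h
      rw [this, sub_zero, D]
      simpa using hI hx

open Classical in
/-- grid of tube `i` -/
noncomputable def td (κ : ℕ) (i : ι) : ℝ :=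
  if h : S.I i ⊆ Set.Ico (0 : ℝ) 1 then (S.exists_grid κ i h).choose else 0

open Classical in
noncomputable def md (κ : ℕ) (i : ι) : ℤ :=
  if h : S.I i ⊆ Set.Ico (0 : ℝ) 1 then (S.exists_grid κ i h).choose_spec.2.choose else 0

theorem td_or (κ : ℕ) (i : ι) : S.td κ i = 0 ∨ S.td κ i = 1 / 3 := by
  unfold td
  split_ifs with h
  · exact (S.exists_grid κ i h).choose_spec.1
  · exact Or.inl rfl

theorem md_spec (κ : ℕ) (i : ι) (h : S.I i ⊆ Set.Ico (0 : ℝ) 1) :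
    (∀ p ∈ S.RD κ i, p.1 - S.td κ i ∈ D (S.kd κ i) (S.md κ i)) ∧
      (∀ x ∈ S.I i, x - S.td κ i ∈ D (S.kd κ i) (S.md κ i)) := by
  unfold td md
  rw [dif_pos h, dif_pos h]
  exact (S.exists_grid κ i h).choose_spec.2.choose_spec

/-- translation of the plane in `x` -/
def shift (τ : ℝ) : ℝ × ℝ → ℝ × ℝ := fun p => (p.1 + τ, p.2)

theorem shift_mp (τ : ℝ) : MeasurePreserving (shift τ) (volume : Measure (ℝ × ℝ)) volume := by
  have h : shift τ = fun p : ℝ × ℝ => p + (τ, 0) := by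
    ext p <;> simp [shift]
  rw [h]
  exact measurePreserving_add_right volume ((τ, 0) : ℝ × ℝ)

/-- the dilated system on the grid `τ` -/
noncomputable def dil (κ : ℕ) (τ : ℝ) :
    Sys {i : ι // S.I i ⊆ Set.Ico (0 : ℝ) 1 ∧ S.td κ i = τ} where
  w := 2 ^ κ * S.w
  A := 16 * S.A
  M := S.M
  δ := S.δ / (16 * 4 ^ κ)
  ε := S.ε
  u := fun x y => S.u (x + τ) y
  k := fun i => S.kd κ i.1
  m := fun i => S.md κ i.1
  s := fun i => S.s i.1
  b := fun i => S.b i.1 + S.s i.1 * τ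
  E := fun i => shift τ ⁻¹' S.E i.1
  w_pos := by have := S.w_pos; positivity
  one_le_A := by linarith [S.one_le_A]
  M_pos := S.M_pos
  δ_pos := by have := S.δ_pos; positivity
  ε_nonneg := S.ε_nonneg
  ε_le := S.ε_le
  u_meas := by
    have : (Function.uncurry fun x y => S.u (x + τ) y) = Function.uncurry S.u ∘ shift τ := by
      ext p; rfl
    rw [this]
    exact S.u_meas.comp (shift_mp τ).measurable
  u_lip := fun x y y' => S.u_lip _ _ _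
  E_meas := fun i => (shift_mp τ).measurable (S.E_meas i.1)
  E_sub := by
    rintro ⟨i, hi, hτ⟩ p hp
    have h1 := S.E_sub i hp
    have h2 := (S.md_spec κ i hi).2 _ h1.1
    have hκ : (1 : ℝ) ≤ 2 ^ κ := one_le_pow₀ (by norm_num)
    have hw := S.w_pos
    constructor
    · rw [hτ] at h2
      simpa [shift] using h2
    · have h3 := h1.2
      simp only [shift] at h3
      have e : p.2 - (S.b i + S.s i * τ + S.s i * p.1) = p.2 - (S.b i + S.s i * (p.1 + τ)) := by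
        ring
      show |p.2 - (S.b i + S.s i * τ + S.s i * p.1)| ≤ 2 ^ κ * S.w
      rw [e]
      nlinarith
  E_slope := by
    rintro ⟨i, hi, hτ⟩ p hp
    have h1 := S.E_slope i _ hp
    have h3 := S.ld_le κ i
    have hl' : (0 : ℝ) < (2 : ℝ)⁻¹ ^ S.kd κ i := by positivity
    have hl : (0 : ℝ) < (2 : ℝ)⁻¹ ^ S.k i := by positivity
    have hA := S.one_le_A
    have hw := S.w_pos
    refine h1.trans ?_
    show S.A * S.w / (2 : ℝ)⁻¹ ^ S.k i ≤ 16 * S.A * (2 ^ κ * S.w) / (2 : ℝ)⁻¹ ^ S.kd κ i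
    rw [div_le_div_iff₀ hl hl']
    have h4 : S.A * S.w * (2 : ℝ)⁻¹ ^ S.kd κ i ≤ S.A * S.w * (2 ^ (κ + 4) * (2 : ℝ)⁻¹ ^ S.k i) :=
      mul_le_mul_of_nonneg_left h3 (by positivity)
    refine h4.trans (le_of_eq ?_)
    rw [pow_add]; ring
  E_dens := by
    rintro ⟨i, hi, hτ⟩
    have h1 : volume.real (shift τ ⁻¹' S.E i) = volume.real (S.E i) := by
      rw [Measure.real, (shift_mp τ).measure_preimage (S.E_meas i).nullMeasurableSet]
      rfl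
    have hw := S.w_pos
    have hδ := S.δ_pos
    show S.δ / (16 * 4 ^ κ) * volume.real (Reg (D (S.kd κ i) (S.md κ i))
      (fun x => S.b i + S.s i * τ + S.s i * x) (2 ^ κ * S.w)) ≤ volume.real (shift τ ⁻¹' S.E i)
    rw [h1, vr_Reg (measurableSet_D _ _) (by fun_prop) (by positivity), vr_D]
    refine le_trans ?_ (S.dens i)
    have h3 := S.ld_le κ i
    have h5 : (4 : ℝ) ^ κ = 2 ^ κ * 2 ^ κ := by rw [← mul_pow]; norm_num
    calc S.δ / (16 * 4 ^ κ) * ((2 : ℝ)⁻¹ ^ S.kd κ i * (2 * (2 ^ κ * S.w)))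
        ≤ S.δ / (16 * 4 ^ κ) * ((2 ^ (κ + 4) * S.l i) * (2 * (2 ^ κ * S.w))) := by
          gcongr
      _ = S.δ * (S.l i * (2 * S.w)) := by
          rw [h5, pow_add]; field_simp; ring
  E_ovl := by
    intro T p
    have h := S.E_ovl (T.map (Function.Embedding.subtype _)) (shift τ p)
    rw [Finset.sum_map] at h
    exact h

open Classical in
/-- counting function of the dilated tubes -/
noncomputable def ND (κ : ℕ) (T : Finset ι) (p : ℝ × ℝ) : ℝ :=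
  ∑ i ∈ T, (S.RD κ i).indicator (fun _ => (1 : ℝ)) p

theorem ND_nonneg (κ : ℕ) (T : Finset ι) (p : ℝ × ℝ) : 0 ≤ S.ND κ T p :=
  Finset.sum_nonneg (fun _ _ => Set.indicator_nonneg (fun _ _ => zero_le_one) _)

theorem ND_meas (κ : ℕ) (T : Finset ι) : Measurable (S.ND κ T) :=
  Finset.measurable_sum _ (fun i _ => measurable_const.indicator (S.RD_meas κ i))

theorem N_nonneg (T : Finset ι) (p : ℝ × ℝ) : 0 ≤ S.N T p :=
  Finset.sum_nonneg (fun _ _ => Set.indicator_nonneg (fun _ _ => zero_le_one) _)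

theorem N_meas (T : Finset ι) : Measurable (S.N T) :=
  Finset.measurable_sum _ (fun i _ => measurable_const.indicator (S.R_meas i))

open Classical in
/-- the part of `T` on the grid `τ` -/
noncomputable def Tg (κ : ℕ) (τ : ℝ) (T : Finset ι) :
    Finset {i : ι // S.I i ⊆ Set.Ico (0 : ℝ) 1 ∧ S.td κ i = τ} :=
  T.subtype _

theorem dil_R_vol (κ : ℕ) (τ : ℝ) (i : {i : ι // S.I i ⊆ Set.Ico (0 : ℝ) 1 ∧ S.td κ i = τ}) :
    volume.real ((S.dil κ τ).R i) ≤ 16 * 4 ^ κ * volume.real (S.R i.1) := by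
  rw [(S.dil κ τ).vr_R, S.vr_R]
  have h3 := S.ld_le κ i.1
  have hw := S.w_pos
  have h5 : (4 : ℝ) ^ κ = 2 ^ κ * 2 ^ κ := by rw [← mul_pow]; norm_num
  show (2 : ℝ)⁻¹ ^ S.kd κ i.1 * (2 * (2 ^ κ * S.w)) ≤ _
  calc (2 : ℝ)⁻¹ ^ S.kd κ i.1 * (2 * (2 ^ κ * S.w))
      ≤ (2 ^ (κ + 4) * S.l i.1) * (2 * (2 ^ κ * S.w)) := by gcongr
    _ = 16 * 4 ^ κ * (S.l i.1 * (2 * S.w)) := by rw [h5, pow_add]; ring

/-- the constant of the dilated theorem -/
noncomputable def CD (T : Finset ι) : ℝ :=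
  (S.A * S.M / S.δ ^ 2) * ∑ i ∈ T, volume.real (S.R i)

theorem CD_nonneg (T : Finset ι) : 0 ≤ S.CD T := by
  unfold CD
  have := S.one_le_A
  have := S.M_pos
  have := S.δ_pos
  have : 0 ≤ ∑ i ∈ T, volume.real (S.R i) := Finset.sum_nonneg (fun _ _ => measureReal_nonneg)
  positivity

theorem kakeya_grid (κ : ℕ) (τ : ℝ) (T : Finset ι) :
    ∫⁻ p, ENNReal.ofReal ((S.dil κ τ).N (S.Tg κ τ T) (shift (-τ) p) ^ 2) ≤
      ENNReal.ofReal (2 ^ 31 * 64 ^ κ * S.CD T) := by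
  classical
  have hm : Measurable fun p => ENNReal.ofReal ((S.dil κ τ).N (S.Tg κ τ T) p ^ 2) :=
    (((S.dil κ τ).N_meas _).pow_const 2).ennreal_ofReal
  have h1 : ∫⁻ p, ENNReal.ofReal ((S.dil κ τ).N (S.Tg κ τ T) (shift (-τ) p) ^ 2) =
      ∫⁻ p, ENNReal.ofReal ((S.dil κ τ).N (S.Tg κ τ T) p ^ 2) :=
    (shift_mp (-τ)).lintegral_comp hm
  rw [h1, ← ofReal_integral_eq_lintegral_ofReal ((S.dil κ τ).int_N_sq _)
    (Filter.Eventually.of_forall (fun p => sq_nonneg _))]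
  apply ENNReal.ofReal_le_ofReal
  refine ((S.dil κ τ).kakeya' _).trans ?_
  have hδ := S.δ_pos
  have hA := S.one_le_A
  have hM := S.M_pos
  have hs : ∑ i ∈ S.Tg κ τ T, volume.real ((S.dil κ τ).R i) ≤
      16 * 4 ^ κ * ∑ i ∈ T, volume.real (S.R i) := by
    rw [Finset.mul_sum]
    calc ∑ i ∈ S.Tg κ τ T, volume.real ((S.dil κ τ).R i)
        ≤ ∑ i ∈ S.Tg κ τ T, 16 * 4 ^ κ * volume.real (S.R i.1) :=
          Finset.sum_le_sum (fun i _ => S.dil_R_vol κ τ i)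
      _ = ∑ i ∈ T.filter (fun i => S.I i ⊆ Set.Ico (0 : ℝ) 1 ∧ S.td κ i = τ),
          16 * 4 ^ κ * volume.real (S.R i) := by
          unfold Tg
          rw [← Finset.sum_subtype_eq_sum_filter]
      _ ≤ _ := Finset.sum_le_sum_of_subset_of_nonneg (Finset.filter_subset _ _)
          (fun _ _ _ => by positivity)
  have h4 : (4 : ℝ) ^ κ * 4 ^ κ * 4 ^ κ = 64 ^ κ := by rw [← mul_pow, ← mul_pow]; norm_num
  show 16392 * (16 * S.A * S.M / (S.δ / (16 * 4 ^ κ)) ^ 2) * _ ≤ _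
  calc 16392 * (16 * S.A * S.M / (S.δ / (16 * 4 ^ κ)) ^ 2) *
        ∑ i ∈ S.Tg κ τ T, volume.real ((S.dil κ τ).R i)
      ≤ 16392 * (16 * S.A * S.M / (S.δ / (16 * 4 ^ κ)) ^ 2) *
        (16 * 4 ^ κ * ∑ i ∈ T, volume.real (S.R i)) := by gcongr
    _ = (16392 * 65536) * (4 ^ κ * 4 ^ κ * 4 ^ κ) * S.CD T := by
        unfold CD
        field_simp
        ring
    _ ≤ 2 ^ 31 * 64 ^ κ * S.CD T := by
        rw [h4]
        have := S.CD_nonneg T
        gcongr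
        norm_num

theorem ND_le (κ : ℕ) (T : Finset ι) (hT : ∀ i ∈ T, S.I i ⊆ Set.Ico (0 : ℝ) 1) (p : ℝ × ℝ) :
    S.ND κ T p ≤ (S.dil κ 0).N (S.Tg κ 0 T) (shift (-0) p) +
      (S.dil κ (1 / 3)).N (S.Tg κ (1 / 3) T) (shift (-(1 / 3)) p) := by
  classical
  have key : ∀ τ : ℝ, ∑ i ∈ T.filter (fun i => S.I i ⊆ Set.Ico (0 : ℝ) 1 ∧ S.td κ i = τ),
      (S.RD κ i).indicator (fun _ => (1 : ℝ)) p ≤
      (S.dil κ τ).N (S.Tg κ τ T) (shift (-τ) p) := by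
    intro τ
    unfold N Tg
    rw [← Finset.sum_subtype_eq_sum_filter]
    apply Finset.sum_le_sum
    rintro ⟨i, hi, hτ⟩ -
    by_cases hp : p ∈ S.RD κ i
    · have h1 := (S.md_spec κ i hi).1 p hp
      have h2 : shift (-τ) p ∈ (S.dil κ τ).R ⟨i, hi, hτ⟩ := by
        constructor
        · rw [hτ, sub_eq_add_neg] at h1
          exact h1
        · have h3 := hp.2.2
          show |p.2 - (S.b i + S.s i * τ + S.s i * (p.1 + -τ))| ≤ 2 ^ κ * S.w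
          have e : p.2 - (S.b i + S.s i * τ + S.s i * (p.1 + -τ)) = p.2 - S.line i p.1 := by
            unfold line; ring
          rw [e]
          exact h3
      rw [Set.indicator_of_mem h2, Set.indicator_of_mem hp]
    · rw [Set.indicator_of_notMem hp]
      exact Set.indicator_nonneg (fun _ _ => zero_le_one) _
  have h0 := key 0
  have h3 := key (1 / 3)
  refine le_trans ?_ (add_le_add h0 h3)
  unfold ND
  rw [← Finset.sum_union]
  · apply Finset.sum_le_sum_of_subset_of_nonneg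
    · intro i hi
      rw [Finset.mem_union, Finset.mem_filter, Finset.mem_filter]
      rcases S.td_or κ i with h | h
      · exact Or.inl ⟨hi, hT i hi, h⟩
      · exact Or.inr ⟨hi, hT i hi, h⟩
    · intro _ _ _
      exact Set.indicator_nonneg (fun _ _ => zero_le_one) _
  · rw [Finset.disjoint_filter]
    rintro i _ ⟨_, h⟩ ⟨_, h'⟩
    rw [h] at h'
    norm_num at h'

/-- **[KTD1]** Kakeya without selection for the tubes dilated by `2^κ`. -/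
theorem kakeya_dil (κ : ℕ) (T : Finset ι) (hT : ∀ i ∈ T, S.I i ⊆ Set.Ico (0 : ℝ) 1) :
    ∫⁻ p, ENNReal.ofReal (S.ND κ T p ^ 2) ≤
      ENNReal.ofReal (2 ^ 33 * 64 ^ κ *
        ((S.A * S.M / S.δ ^ 2) * ∑ i ∈ T, volume.real (S.R i))) := by
  have hpt : ∀ p, ENNReal.ofReal (S.ND κ T p ^ 2) ≤
      2 * ENNReal.ofReal ((S.dil κ 0).N (S.Tg κ 0 T) (shift (-0) p) ^ 2) +
      2 * ENNReal.ofReal ((S.dil κ (1 / 3)).N (S.Tg κ (1 / 3) T) (shift (-(1 / 3)) p) ^ 2) := by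
    intro p
    have h1 := S.ND_le κ T hT p
    have h0 := S.ND_nonneg κ T p
    have e2 : (2 : ℝ≥0∞) = ENNReal.ofReal 2 := by simp
    rw [e2, ← ENNReal.ofReal_mul (by norm_num), ← ENNReal.ofReal_mul (by norm_num),
      ← ENNReal.ofReal_add (by positivity) (by positivity)]
    apply ENNReal.ofReal_le_ofReal
    set a := (S.dil κ 0).N (S.Tg κ 0 T) (shift (-0) p)
    set b := (S.dil κ (1 / 3)).N (S.Tg κ (1 / 3) T) (shift (-(1 / 3)) p)
    nlinarith [sq_nonneg (a - b)]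
  have hm : ∀ τ, Measurable fun p =>
      2 * ENNReal.ofReal ((S.dil κ τ).N (S.Tg κ τ T) (shift (-τ) p) ^ 2) := fun τ =>
    ((((S.dil κ τ).N_meas _).comp (shift_mp _).measurable).pow_const 2).ennreal_ofReal.const_mul _
  refine (lintegral_mono hpt).trans ?_
  rw [lintegral_add_left (hm 0), lintegral_const_mul' _ _ (by norm_num),
    lintegral_const_mul' _ _ (by norm_num)]
  have k0 := S.kakeya_grid κ 0 T
  have k1 := S.kakeya_grid κ (1 / 3) T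
  calc _ ≤ 2 * ENNReal.ofReal (2 ^ 31 * 64 ^ κ * S.CD T) +
        2 * ENNReal.ofReal (2 ^ 31 * 64 ^ κ * S.CD T) := by gcongr
    _ = ENNReal.ofReal (2 ^ 33 * 64 ^ κ * S.CD T) := by
        have e2 : (2 : ℝ≥0∞) = ENNReal.ofReal 2 := by simp
        have := S.CD_nonneg T
        rw [e2, ← ENNReal.ofReal_mul (by norm_num), ← ENNReal.ofReal_add (by positivity)
          (by positivity)]
        congr 1
        ring

/-- distribution form of `kakeya_dil` -/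
theorem kakeya_dil_distr (κ : ℕ) (T : Finset ι) (hT : ∀ i ∈ T, S.I i ⊆ Set.Ico (0 : ℝ) 1)
    {lam : ℝ} (hl : 0 < lam) :
    ENNReal.ofReal (lam ^ 2) * volume {p | lam ≤ S.ND κ T p} ≤
      ENNReal.ofReal (2 ^ 33 * 64 ^ κ *
        ((S.A * S.M / S.δ ^ 2) * ∑ i ∈ T, volume.real (S.R i))) := by
  refine le_trans ?_ (S.kakeya_dil κ T hT)
  refine le_trans ?_ (mul_meas_ge_le_lintegral₀
    (((S.ND_meas κ T).pow_const 2).ennreal_ofReal.aemeasurable) (ENNReal.ofReal (lam ^ 2)))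
  apply mul_le_mul' le_rfl
  apply measure_mono
  intro p hp
  exact ENNReal.ofReal_le_ofReal (pow_le_pow_left₀ hl.le hp 2)

end Sys

theorem sq_sum_le (n : ℕ) (x : ℕ → ℝ≥0∞) :
    (∑ κ ∈ Finset.range n, x κ) ^ 2 ≤ ∑ κ ∈ Finset.range n, 2 ^ (κ + 1) * x κ ^ 2 := by
  by_cases h : ∃ κ ∈ Finset.range n, x κ = ∞
  · obtain ⟨κ, hκ, hx⟩ := h
    have h1 : 2 ^ (κ + 1) * x κ ^ 2 ≤ ∑ κ ∈ Finset.range n, 2 ^ (κ + 1) * x κ ^ 2 :=
      Finset.single_le_sum (f := fun κ => 2 ^ (κ + 1) * x κ ^ 2) (fun _ _ => zero_le) hκ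
    have h2 : (2 : ℝ≥0∞) ^ (κ + 1) * x κ ^ 2 = ∞ := by
      rw [hx]
      simp [ENNReal.mul_top]
    rw [h2] at h1
    exact le_top.trans h1
  · push Not at h
    have h3 : ∀ κ ∈ Finset.range n, x κ = ((x κ).toNNReal : ℝ≥0∞) := fun κ hκ =>
      (ENNReal.coe_toNNReal (h κ hκ)).symm
    have h4 : ∑ κ ∈ Finset.range n, x κ =
        ((∑ κ ∈ Finset.range n, (x κ).toNNReal : NNReal) : ℝ≥0∞) := by
      push_cast
      exact Finset.sum_congr rfl h3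
    have h5 : ∑ κ ∈ Finset.range n, 2 ^ (κ + 1) * x κ ^ 2 =
        ((∑ κ ∈ Finset.range n, 2 ^ (κ + 1) * (x κ).toNNReal ^ 2 : NNReal) : ℝ≥0∞) := by
      push_cast
      exact Finset.sum_congr rfl (fun κ hκ => by rw [← h3 κ hκ])
    rw [h4, h5]
    have h6 : (∑ κ ∈ Finset.range n, (x κ).toNNReal) ^ 2 ≤
        ∑ κ ∈ Finset.range n, 2 ^ (κ + 1) * (x κ).toNNReal ^ 2 := by
      have h7 := Finset.sum_sq_le_sum_mul_sum_of_sq_le_mul (Finset.range n)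
        (f := fun κ => ((2 : NNReal) ^ (κ + 1))⁻¹) (g := fun κ => 2 ^ (κ + 1) * (x κ).toNNReal ^ 2)
        (r := fun κ => (x κ).toNNReal) (fun _ _ => zero_le) (fun _ _ => zero_le)
        (fun κ _ => by
          have : (2 : NNReal) ^ (κ + 1) ≠ 0 := by positivity
          apply le_of_eq
          field_simp)
      refine h7.trans ?_
      have h8 : ∑ κ ∈ Finset.range n, ((2 : NNReal) ^ (κ + 1))⁻¹ ≤ 1 := by
        have : ∀ n : ℕ, ∑ κ ∈ Finset.range n, ((2 : NNReal) ^ (κ + 1))⁻¹ + ((2 : NNReal) ^ n)⁻¹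
            = 1 := by
          intro n
          induction n with
          | zero => simp
          | succ n ih =>
            rw [Finset.sum_range_succ, add_assoc]
            have : ((2 : NNReal) ^ (n + 1))⁻¹ + ((2 : NNReal) ^ (n + 1))⁻¹ = ((2 : NNReal) ^ n)⁻¹ := by
              rw [pow_succ]
              have : (2 : NNReal) ^ n ≠ 0 := by positivity
              field_simp
              norm_num
            rw [this, ih]
        calc _ ≤ _ := le_self_add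
          _ = 1 := this n
      calc _ ≤ 1 * ∑ κ ∈ Finset.range n, 2 ^ (κ + 1) * (x κ).toNNReal ^ 2 := by gcongr
        _ = _ := one_mul _
    exact_mod_cast h6

theorem sq_tsum_le (x : ℕ → ℝ≥0∞) :
    (∑' κ, x κ) ^ 2 ≤ ∑' κ, 2 ^ (κ + 1) * x κ ^ 2 := by
  have h1 := ENNReal.tendsto_nat_tsum x
  have h2 := ((ENNReal.continuous_pow 2).tendsto _).comp h1
  refine le_of_tendsto' h2 (fun n => ?_)
  exact (sq_sum_le n x).trans (ENNReal.sum_le_tsum _)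

namespace Sys

variable {ι : Type*} (S : Sys ι)

/-- **[KTD2]** general weights. -/
theorem kakeya_weight (T : Finset ι) (hT : ∀ i ∈ T, S.I i ⊆ Set.Ico (0 : ℝ) 1)
    (φ : ι → ℝ × ℝ → ℝ≥0∞) (c : ℕ → ℝ≥0∞)
    (h0 : ∀ i ∈ T, ∀ p : ℝ × ℝ, p.1 ∈ Set.Ico (0 : ℝ) 1 → φ i p ≤ c 0)
    (h1 : ∀ i ∈ T, ∀ p : ℝ × ℝ, p.1 ∈ Set.Ico (0 : ℝ) 1 → ∀ κ, p ∉ S.RD κ i →
      φ i p ≤ c (κ + 1)) :
    ∫⁻ p in {p : ℝ × ℝ | p.1 ∈ Set.Ico (0 : ℝ) 1}, (∑ i ∈ T, φ i p) ^ 2 ≤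
      (∑' κ, 2 ^ (κ + 1) * c κ ^ 2 * 64 ^ κ) * ENNReal.ofReal (2 ^ 33 *
        ((S.A * S.M / S.δ ^ 2) * ∑ i ∈ T, volume.real (S.R i))) := by
  classical
  have hcd : (S.A * S.M / S.δ ^ 2) * ∑ i ∈ T, volume.real (S.R i) = S.CD T := rfl
  have hpt : ∀ p ∈ {p : ℝ × ℝ | p.1 ∈ Set.Ico (0 : ℝ) 1}, (∑ i ∈ T, φ i p) ^ 2 ≤
      ∑' κ, 2 ^ (κ + 1) * c κ ^ 2 * ENNReal.ofReal (S.ND κ T p ^ 2) := by
    intro p hp
    have hone : ∀ i ∈ T, φ i p ≤ ∑' κ, c κ * (S.RD κ i).indicator (fun _ => (1 : ℝ≥0∞)) p := by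
      intro i hi
      have hex : ∃ κ, p ∈ S.RD κ i := by
        have hl := S.l_pos i
        have hw := S.w_pos
        obtain ⟨κ, hκ⟩ := pow_unbounded_of_one_lt
          (max (max (((S.m i : ℝ) / 2 ^ S.k i - p.1) / S.l i)
            ((p.1 - ((S.m i : ℝ) + 1) / 2 ^ S.k i) / S.l i)) (|p.2 - S.line i p.1| / S.w))
          (by norm_num : (1 : ℝ) < 2)
        have e1 := (le_max_left _ _).trans_lt hκ
        have e2 := (le_max_right _ _).trans_lt hκ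
        have e3 := (le_max_left _ _).trans_lt e1
        have e4 := (le_max_right _ _).trans_lt e1
        rw [div_lt_iff₀ hl] at e3 e4
        rw [div_lt_iff₀ hw] at e2
        exact ⟨κ, hp, ⟨by linarith, by linarith⟩, e2.le⟩
      have hmin := Nat.find_spec hex
      set κ := Nat.find hex with hκ
      have hle : φ i p ≤ c κ := by
        rcases Nat.eq_zero_or_pos κ with h | h
        · rw [h]; exact h0 i hi p hp
        · obtain ⟨κ', hκ'⟩ : ∃ κ', κ = κ' + 1 := ⟨κ - 1, by omega⟩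
          rw [hκ']
          exact h1 i hi p hp κ' (Nat.find_min hex (by omega))
      calc φ i p ≤ c κ * (S.RD κ i).indicator (fun _ => (1 : ℝ≥0∞)) p := by
            rw [Set.indicator_of_mem hmin, mul_one]; exact hle
        _ ≤ _ := ENNReal.le_tsum (f := fun κ => c κ *
            (S.RD κ i).indicator (fun _ => (1 : ℝ≥0∞)) p) κ
    have hsum : ∑ i ∈ T, φ i p ≤ ∑' κ, c κ * ENNReal.ofReal (S.ND κ T p) := by
      calc ∑ i ∈ T, φ i p
          ≤ ∑ i ∈ T, ∑' κ, c κ * (S.RD κ i).indicator (fun _ => (1 : ℝ≥0∞)) p :=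
            Finset.sum_le_sum hone
        _ = ∑' κ, ∑ i ∈ T, c κ * (S.RD κ i).indicator (fun _ => (1 : ℝ≥0∞)) p :=
            (Summable.tsum_finsetSum (fun _ _ => ENNReal.summable)).symm
        _ = _ := by
            congr 1
            ext κ
            rw [← Finset.mul_sum]
            congr 1
            unfold ND
            rw [ENNReal.ofReal_sum_of_nonneg
              (fun _ _ => Set.indicator_nonneg (fun _ _ => zero_le_one) _)]
            apply Finset.sum_congr rfl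
            intro i _
            by_cases h : p ∈ S.RD κ i <;> simp [h]
    calc (∑ i ∈ T, φ i p) ^ 2 ≤ (∑' κ, c κ * ENNReal.ofReal (S.ND κ T p)) ^ 2 := by gcongr
      _ ≤ ∑' κ, 2 ^ (κ + 1) * (c κ * ENNReal.ofReal (S.ND κ T p)) ^ 2 := sq_tsum_le _
      _ = _ := by
          congr 1
          ext κ
          rw [mul_pow, ← ENNReal.ofReal_pow (S.ND_nonneg κ T p), mul_assoc]
  have hset : MeasurableSet {p : ℝ × ℝ | p.1 ∈ Set.Ico (0 : ℝ) 1} :=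
    measurable_fst measurableSet_Ico
  calc ∫⁻ p in {p : ℝ × ℝ | p.1 ∈ Set.Ico (0 : ℝ) 1}, (∑ i ∈ T, φ i p) ^ 2
      ≤ ∫⁻ p in {p : ℝ × ℝ | p.1 ∈ Set.Ico (0 : ℝ) 1},
        ∑' κ, 2 ^ (κ + 1) * c κ ^ 2 * ENNReal.ofReal (S.ND κ T p ^ 2) :=
        setLIntegral_mono' hset hpt
    _ ≤ ∫⁻ p, ∑' κ, 2 ^ (κ + 1) * c κ ^ 2 * ENNReal.ofReal (S.ND κ T p ^ 2) :=
        setLIntegral_le_lintegral _ _
    _ = ∑' κ, ∫⁻ p, 2 ^ (κ + 1) * c κ ^ 2 * ENNReal.ofReal (S.ND κ T p ^ 2) := by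
        apply lintegral_tsum
        intro κ
        exact (((S.ND_meas κ T).pow_const 2).ennreal_ofReal.const_mul _).aemeasurable
    _ = ∑' κ, 2 ^ (κ + 1) * c κ ^ 2 * ∫⁻ p, ENNReal.ofReal (S.ND κ T p ^ 2) := by
        congr 1
        ext κ
        rw [lintegral_const_mul _ ((S.ND_meas κ T).pow_const 2).ennreal_ofReal]
    _ ≤ ∑' κ, (2 ^ (κ + 1) * c κ ^ 2 * 64 ^ κ) * ENNReal.ofReal (2 ^ 33 * S.CD T) := by
        apply ENNReal.tsum_le_tsum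
        intro κ
        rw [mul_assoc (2 ^ (κ + 1) * c κ ^ 2) (64 ^ κ)]
        gcongr
        refine (S.kakeya_dil κ T hT).trans (le_of_eq ?_)
        rw [hcd]
        have e : (64 : ℝ≥0∞) ^ κ = ENNReal.ofReal (64 ^ κ) := by
          rw [ENNReal.ofReal_pow (by norm_num)]
          norm_num
        rw [e, ← ENNReal.ofReal_mul (by positivity)]
        congr 1
        ring
    _ = _ := by rw [ENNReal.tsum_mul_right, hcd]

/-- normalised distance of `p` to the tube `i`, measured from a base point `x0 i` -/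
noncomputable def dd (x0 : ι → ℝ) (i : ι) (p : ℝ × ℝ) : ℝ :=
  |p.1 - x0 i| / S.l i + |p.2 - S.line i p.1| / S.w

theorem dd_nonneg (x0 : ι → ℝ) (i : ι) (p : ℝ × ℝ) : 0 ≤ S.dd x0 i p := by
  have := S.l_pos i
  have := S.w_pos
  unfold dd
  positivity

theorem dd_ge (x0 : ι → ℝ) (i : ι) (hx0 : x0 i ∈ S.I i) (p : ℝ × ℝ)
    (hp : p.1 ∈ Set.Ico (0 : ℝ) 1) (κ : ℕ) (h : p ∉ S.RD κ i) : 2 ^ κ ≤ S.dd x0 i p := by
  have hl := S.l_pos i
  have hw := S.w_pos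
  have hx : x0 i ∈ Set.Ico ((S.m i : ℝ) / 2 ^ S.k i) (((S.m i : ℝ) + 1) / 2 ^ S.k i) := hx0
  by_contra hcon
  rw [not_le] at hcon
  apply h
  unfold dd at hcon
  have a1 : 0 ≤ |p.1 - x0 i| / S.l i := by positivity
  have a2 : 0 ≤ |p.2 - S.line i p.1| / S.w := by positivity
  have b1 : |p.1 - x0 i| / S.l i < 2 ^ κ := by linarith
  have b2 : |p.2 - S.line i p.1| / S.w < 2 ^ κ := by linarith
  rw [div_lt_iff₀ hl, abs_lt] at b1
  rw [div_lt_iff₀ hw] at b2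
  exact ⟨hp, ⟨by linarith [hx.1, b1.1], by linarith [hx.2, b1.2]⟩, b2.le⟩

/-- **[KTD2]** polynomial weights `(1 + d)^-4`. -/
theorem kakeya_poly (T : Finset ι) (hT : ∀ i ∈ T, S.I i ⊆ Set.Ico (0 : ℝ) 1) (x0 : ι → ℝ)
    (hx0 : ∀ i ∈ T, x0 i ∈ S.I i) (φ : ι → ℝ × ℝ → ℝ≥0∞)
    (hφ : ∀ i ∈ T, ∀ p : ℝ × ℝ, p.1 ∈ Set.Ico (0 : ℝ) 1 →
      φ i p ≤ ENNReal.ofReal (((1 + S.dd x0 i p) ^ 4)⁻¹)) :
    ∫⁻ p in {p : ℝ × ℝ | p.1 ∈ Set.Ico (0 : ℝ) 1}, (∑ i ∈ T, φ i p) ^ 2 ≤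
      ENNReal.ofReal (2 ^ 43 * ((S.A * S.M / S.δ ^ 2) * ∑ i ∈ T, volume.real (S.R i))) := by
  set c : ℕ → ℝ≥0∞ := fun κ => ENNReal.ofReal (16 * (2 ^ (4 * κ))⁻¹) with hc
  refine (S.kakeya_weight T hT φ c ?_ ?_).trans ?_
  · intro i hi p hp
    refine (hφ i hi p hp).trans (ENNReal.ofReal_le_ofReal ?_)
    have := S.dd_nonneg x0 i p
    have h1 : (1 : ℝ) ≤ (1 + S.dd x0 i p) ^ 4 := one_le_pow₀ (by linarith)
    calc ((1 + S.dd x0 i p) ^ 4)⁻¹ ≤ 1 := inv_le_one_of_one_le₀ h1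
      _ ≤ _ := by norm_num
  · intro i hi p hp κ h
    refine (hφ i hi p hp).trans (ENNReal.ofReal_le_ofReal ?_)
    have h1 := S.dd_ge x0 i (hx0 i hi) p hp κ h
    have h2 : (2 : ℝ) ^ (4 * κ) ≤ (1 + S.dd x0 i p) ^ 4 := by
      rw [mul_comm, pow_mul]
      exact pow_le_pow_left₀ (by positivity) (by linarith) 4
    calc ((1 + S.dd x0 i p) ^ 4)⁻¹ ≤ (2 ^ (4 * κ))⁻¹ := inv_anti₀ (by positivity) h2
      _ = 16 * (2 ^ (4 * (κ + 1)))⁻¹ := by
        rw [mul_add, pow_add]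
        have : (2 : ℝ) ^ (4 * κ) ≠ 0 := by positivity
        field_simp
        norm_num
  · have h1 : ∀ κ, (2 : ℝ≥0∞) ^ (κ + 1) * c κ ^ 2 * 64 ^ κ = ENNReal.ofReal (512 * (1 / 2) ^ κ) := by
      intro κ
      rw [hc]
      have e1 : (2 : ℝ≥0∞) ^ (κ + 1) = ENNReal.ofReal (2 ^ (κ + 1)) := by
        rw [ENNReal.ofReal_pow (by norm_num)]; norm_num
      have e2 : (64 : ℝ≥0∞) ^ κ = ENNReal.ofReal (64 ^ κ) := by
        rw [ENNReal.ofReal_pow (by norm_num)]; norm_num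
      rw [e1, e2, ← ENNReal.ofReal_pow (by positivity), ← ENNReal.ofReal_mul (by positivity),
        ← ENNReal.ofReal_mul (by positivity)]
      congr 1
      have e3 : (64 : ℝ) ^ κ = 2 ^ (6 * κ) := by rw [pow_mul]; norm_num
      have e4 : (1 / 2 : ℝ) ^ κ = (2 ^ κ)⁻¹ := by rw [one_div, inv_pow]
      rw [e3, e4, mul_pow, inv_pow, ← pow_mul]
      have e5 : (2 : ℝ) ^ (4 * κ * 2) = 2 ^ κ * 2 ^ (6 * κ) * 2 ^ κ := by
        rw [← pow_add, ← pow_add]; congr 1; ring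
      rw [e5, pow_succ]
      have : (2 : ℝ) ^ κ ≠ 0 := by positivity
      have : (2 : ℝ) ^ (6 * κ) ≠ 0 := by positivity
      field_simp
      norm_num
    have h2 : ∑' κ : ℕ, (2 : ℝ≥0∞) ^ (κ + 1) * c κ ^ 2 * 64 ^ κ = ENNReal.ofReal 1024 := by
      simp_rw [h1]
      rw [← ENNReal.ofReal_tsum_of_nonneg (fun _ => by positivity)
        ((summable_geometric_two).mul_left _), tsum_mul_left, tsum_geometric_two]
      norm_num
    rw [h2, ← ENNReal.ofReal_mul (by norm_num)]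
    apply ENNReal.ofReal_le_ofReal
    apply le_of_eq
    ring

/-- **[KTD3]** exponential weights `exp (-e d)`. -/
theorem kakeya_exp (T : Finset ι) (hT : ∀ i ∈ T, S.I i ⊆ Set.Ico (0 : ℝ) 1) (x0 : ι → ℝ)
    (hx0 : ∀ i ∈ T, x0 i ∈ S.I i) {e : ℝ} (he : 0 < e) (he1 : e ≤ 1)
    (φ : ι → ℝ × ℝ → ℝ≥0∞)
    (hφ : ∀ i ∈ T, ∀ p : ℝ × ℝ, p.1 ∈ Set.Ico (0 : ℝ) 1 →
      φ i p ≤ ENNReal.ofReal (Real.exp (-(e * S.dd x0 i p)))) :
    ∫⁻ p in {p : ℝ × ℝ | p.1 ∈ Set.Ico (0 : ℝ) 1}, (∑ i ∈ T, φ i p) ^ 2 ≤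
      ENNReal.ofReal (2 ^ 56 / e ^ 8 *
        ((S.A * S.M / S.δ ^ 2) * ∑ i ∈ T, volume.real (S.R i))) := by
  set B : ℝ := 72 / e ^ 4 with hB
  have hBpos : 0 < B := by positivity
  have hBe : ENNReal.ofReal B ≠ 0 := by simpa using hBpos
  have hBt : ENNReal.ofReal B ≠ ∞ := ENNReal.ofReal_ne_top
  have key : ∀ d : ℝ, 0 ≤ d → Real.exp (-(e * d)) ≤ B * ((1 + d) ^ 4)⁻¹ := by
    intro d hd
    have h1 := Real.pow_div_factorial_le_exp (e * (1 + d)) (by positivity) 4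
    have h2 : Real.exp (e * (1 + d)) = Real.exp e * Real.exp (e * d) := by
      rw [← Real.exp_add]; ring_nf
    have h3 : Real.exp e ≤ 3 := by
      have : Real.exp e ≤ Real.exp 1 := Real.exp_le_exp.2 he1
      linarith [Real.exp_one_lt_d9]
    rw [Real.exp_neg, hB]
    have h4 : 0 < Real.exp (e * d) := Real.exp_pos _
    have h5 : (e * (1 + d)) ^ 4 ≤ 72 * Real.exp (e * d) := by
      have : (4 : ℕ).factorial = 24 := by decide
      rw [h2, this, div_le_iff₀ (by norm_num)] at h1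
      push_cast at h1
      nlinarith
    rw [div_mul_eq_mul_div, le_div_iff₀ (by positivity), inv_mul_eq_div, div_le_iff₀ h4,
      mul_assoc, inv_mul_eq_div, mul_div_assoc', le_div_iff₀ (by positivity), ← mul_pow]
    exact h5
  have h := S.kakeya_poly T hT x0 hx0 (fun i p => (ENNReal.ofReal B)⁻¹ * φ i p) (by
    intro i hi p hp
    have h1 := hφ i hi p hp
    have h2 := key _ (S.dd_nonneg x0 i p)
    have h3 : φ i p ≤ ENNReal.ofReal B * ENNReal.ofReal (((1 + S.dd x0 i p) ^ 4)⁻¹) := by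
      rw [← ENNReal.ofReal_mul hBpos.le]
      exact h1.trans (ENNReal.ofReal_le_ofReal h2)
    calc (ENNReal.ofReal B)⁻¹ * φ i p ≤ (ENNReal.ofReal B)⁻¹ *
          (ENNReal.ofReal B * ENNReal.ofReal (((1 + S.dd x0 i p) ^ 4)⁻¹)) := by gcongr
      _ = _ := by rw [← mul_assoc, ENNReal.inv_mul_cancel hBe hBt, one_mul])
  have h6 : ∀ p : ℝ × ℝ, (∑ i ∈ T, φ i p) ^ 2 =
      ENNReal.ofReal B ^ 2 * (∑ i ∈ T, (ENNReal.ofReal B)⁻¹ * φ i p) ^ 2 := by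
    intro p
    rw [← mul_pow, ← Finset.mul_sum, ← mul_assoc, ENNReal.mul_inv_cancel hBe hBt, one_mul]
  simp_rw [h6]
  rw [lintegral_const_mul' _ _ (ENNReal.pow_ne_top hBt)]
  calc _ ≤ ENNReal.ofReal B ^ 2 * ENNReal.ofReal (2 ^ 43 *
        ((S.A * S.M / S.δ ^ 2) * ∑ i ∈ T, volume.real (S.R i))) := by gcongr
    _ ≤ _ := by
        rw [← ENNReal.ofReal_pow hBpos.le, ← ENNReal.ofReal_mul (by positivity)]
        apply ENNReal.ofReal_le_ofReal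
        have h7 := S.CD_nonneg T
        unfold CD at h7
        set X := (S.A * S.M / S.δ ^ 2) * ∑ i ∈ T, volume.real (S.R i)
        have h8 : B ^ 2 * (2 ^ 43 * X) = (5184 * 2 ^ 43) / e ^ 8 * X := by
          rw [hB, div_pow, ← pow_mul]
          ring
        rw [h8]
        gcongr
        norm_num

end Sys

end Vale.Agent.P112.H310
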