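import Vale.Agent.P112.H310.Pack

/-!
P112 / H310: the `L²` Kakeya inequality without selection.
-/

namespace Vale.Agent.P112.H310

open MeasureTheory Set
open scoped ENNReal BigOperators

theorem level_le_of_sub {k k' : ℕ} {m m' : ℤ} (h : D k m ⊆ D k' m') : k' ≤ k := by
  by_contra hc
  have h1 : volume.real (D k m) ≤ volume.real (D k' m') :=
    measureReal_mono h (Sys.vol_D_ne_top _ _)
  rw [Sys.vr_D, Sys.vr_D] at h1
  have h2 : (2 : ℝ)⁻¹ ^ k' < (2 : ℝ)⁻¹ ^ k :=
    pow_lt_pow_right_of_lt_one₀ (by norm_num) (by norm_num) (not_le.1 hc)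
  linarith

/-- a set with density `≥ δ` in each member of a finite family of dyadic intervals -/
theorem union_dens (P : Finset (ℕ × ℤ)) (E : Set ℝ) (hE : MeasurableSet E)
    (hE' : volume E ≠ ∞) {δ : ℝ} (hδ : 0 ≤ δ)
    (h : ∀ p ∈ P, δ * (2 : ℝ)⁻¹ ^ p.1 ≤ volume.real (E ∩ D p.1 p.2)) :
    δ * volume.real (⋃ p ∈ P, D p.1 p.2) ≤ volume.real E := by
  classical
  set P' := P.filter (fun p => ∀ q ∈ P, D p.1 p.2 ⊆ D q.1 q.2 → q = p) with hP'
  have hcov : (⋃ p ∈ P, D p.1 p.2) ⊆ ⋃ p ∈ P', D p.1 p.2 := by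
    intro x hx
    simp only [Set.mem_iUnion] at hx
    obtain ⟨p, hp, hx⟩ := hx
    obtain ⟨q, hq, hmin⟩ := Finset.exists_min_image
      (P.filter (fun q => D p.1 p.2 ⊆ D q.1 q.2)) (fun q => q.1)
      ⟨p, Finset.mem_filter.2 ⟨hp, Set.Subset.rfl⟩⟩
    rw [Finset.mem_filter] at hq
    simp only [Set.mem_iUnion]
    refine ⟨q, ?_, hq.2 hx⟩
    rw [hP', Finset.mem_filter]
    refine ⟨hq.1, ?_⟩
    intro r hr hqr
    have h1 := hmin r (Finset.mem_filter.2 ⟨hr, hq.2.trans hqr⟩)
    have h2 := level_le_of_sub hqr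
    have h3 : r.1 = q.1 := le_antisymm h2 h1
    have h4 := mem_D.1 (hqr (left_mem_D q.1 q.2))
    have h5 := mem_D.1 (left_mem_D q.1 q.2)
    rw [h3, h5] at h4
    exact Prod.ext h3 h4.symm
  have hdis : ∀ p ∈ P', ∀ q ∈ P', p ≠ q → Disjoint (D p.1 p.2) (D q.1 q.2) := by
    intro p hp q hq hne
    rw [hP', Finset.mem_filter] at hp hq
    rw [Set.disjoint_left]
    intro x hx hx'
    rcases le_total p.1 q.1 with h1 | h1
    · exact hne (hq.2 p hp.1 (D_subset_of_mem h1 hx' hx))
    · exact hne (hp.2 q hq.1 (D_subset_of_mem h1 hx hx')).symm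
  have h1 : volume.real (⋃ p ∈ P, D p.1 p.2) ≤ ∑ p ∈ P', (2 : ℝ)⁻¹ ^ p.1 := by
    have hfin : volume (⋃ p ∈ P', D p.1 p.2) ≠ ∞ := by
      apply ne_top_of_le_ne_top _ (measure_biUnion_finset_le _ _)
      rw [ENNReal.sum_ne_top]
      intro p _
      exact Sys.vol_D_ne_top _ _
    refine (measureReal_mono hcov hfin).trans ((measureReal_biUnion_finset_le _ _).trans ?_)
    apply Finset.sum_le_sum
    intro p _
    rw [Sys.vr_D]
  calc δ * volume.real (⋃ p ∈ P, D p.1 p.2) ≤ δ * ∑ p ∈ P', (2 : ℝ)⁻¹ ^ p.1 :=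
        mul_le_mul_of_nonneg_left h1 hδ
    _ = ∑ p ∈ P', δ * (2 : ℝ)⁻¹ ^ p.1 := Finset.mul_sum _ _ _
    _ ≤ ∑ p ∈ P', volume.real (E ∩ D p.1 p.2) := by
        apply Finset.sum_le_sum
        intro p hp
        rw [hP', Finset.mem_filter] at hp
        exact h p hp.1
    _ = volume.real (⋃ p ∈ P', (E ∩ D p.1 p.2)) := by
        rw [← measureReal_biUnion_finset ?_ ?_ ?_]
        · intro p hp q hq hne
          exact (hdis p hp q hq hne).mono Set.inter_subset_right Set.inter_subset_right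
        · intro p _
          exact hE.inter (measurableSet_D _ _)
        · intro p _
          exact ne_top_of_le_ne_top hE' (measure_mono Set.inter_subset_left)
    _ ≤ volume.real E := by
        refine measureReal_mono ?_ hE'
        intro x hx
        simp only [Set.mem_iUnion] at hx
        obtain ⟨p, _, hx⟩ := hx
        exact hx.1

namespace Sys

variable {ι : Type*} (S : Sys ι)

theorem En_sub (i : ι) (n : ℤ) : S.En i n ⊆ S.I i := fun _ hx => hx.1

theorem vol_En_ne_top (i : ι) (n : ℤ) : volume (S.En i n) ≠ ∞ :=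
  ne_top_of_le_ne_top (S.vol_I_ne_top i) (measure_mono (S.En_sub i n))

/-- density of `En` in the base interval of a tube of the class -/
theorem En_dens {T : Finset ι} {i j : ι} {n : ℤ} (hj : j ∈ S.cls T i n) :
    S.δ * S.l j ≤ volume.real (S.En i n ∩ S.I j) := by
  have hw := S.w_pos
  have hc := S.mem_cls.1 hj
  have hmeas : MeasurableSet (S.En i n ∩ S.I j) := (S.En_meas i n).inter (measurableSet_D _ _)
  have hfin : volume (S.En i n ∩ S.I j) ≠ ∞ :=
    ne_top_of_le_ne_top (S.vol_I_ne_top j) (measure_mono Set.inter_subset_right)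
  have hsub : S.E j ⊆ Reg (S.En i n ∩ S.I j) (S.line j) S.w := by
    intro p hp
    have hpR := S.E_sub_R j hp
    exact ⟨⟨S.proj_E hc.2.2.1 hc.2.1 hc.2.2.2.1 hc.2.2.2.2 hp, hpR.1⟩, hpR.2⟩
  have h1 := measureReal_mono hsub (volR_ne_top hmeas hfin (S.line_meas j) _)
  rw [vr_Reg hmeas (S.line_meas j) hw.le] at h1
  have h2 := (S.dens j).trans h1
  have : S.δ * S.l j * (2 * S.w) ≤ volume.real (S.En i n ∩ S.I j) * (2 * S.w) := by linarith
  exact le_of_mul_le_mul_right this (by positivity)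

theorem Y_le (T : Finset ι) (i : ι) (n : ℤ) :
    S.δ * volume.real (S.Y T i n) ≤ volume.real (S.En i n) := by
  classical
  have h := union_dens ((S.clG T i n).image (fun j => (S.k j, S.m j))) (S.En i n)
    (S.En_meas i n) (S.vol_En_ne_top i n) S.δ_pos.le (by
      intro p hp
      rw [Finset.mem_image] at hp
      obtain ⟨j, hj, rfl⟩ := hp
      exact S.En_dens (S.mem_clG.1 hj).1)
  have e : (⋃ p ∈ (S.clG T i n).image (fun j => (S.k j, S.m j)), D p.1 p.2) = S.Y T i n := by
    unfold Y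
    ext x
    simp only [Set.mem_iUnion, Finset.mem_image]
    constructor
    · rintro ⟨p, ⟨j, hj, rfl⟩, hx⟩
      exact ⟨j, hj, hx⟩
    · rintro ⟨j, hj, hx⟩
      exact ⟨_, ⟨j, hj, rfl⟩, hx⟩
  rwa [e] at h

theorem En_disj (i : ι) {n n' : ℤ} (h : n + 2 ≤ n') : Disjoint (S.En i n) (S.En i n') := by
  rw [Set.disjoint_left]
  intro x hx hx'
  have h1 : (2 : ℝ) ^ (n + 2) ≤ (2 : ℝ) ^ n' := zpow_le_zpow_right₀ (by norm_num) h
  rw [zpow_add₀ (by norm_num)] at h1
  have h2 := hx.2.2
  have h3 := hx'.2.1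
  have h4 : (0 : ℝ) < (2 : ℝ) ^ n := by positivity
  norm_num at h1
  linarith

theorem sum_En_parity (i : ι) (N : Finset ℤ)
    (hN : ∀ n ∈ N, ∀ n' ∈ N, n < n' → n + 2 ≤ n') :
    ∑ n ∈ N, volume.real (S.En i n) ≤ S.l i := by
  rw [← measureReal_biUnion_finset ?_ ?_ ?_]
  · rw [← S.vr_I]
    refine measureReal_mono ?_ (S.vol_I_ne_top i)
    intro x hx
    simp only [Set.mem_iUnion] at hx
    obtain ⟨n, _, hx⟩ := hx
    exact S.En_sub i n hx
  · intro n hn n' hn' hne
    rcases lt_or_gt_of_ne hne with h | h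
    · exact S.En_disj i (hN n hn n' hn' h)
    · exact (S.En_disj i (hN n' hn' n hn h)).symm
  · intro n _; exact S.En_meas i n
  · intro n _; exact S.vol_En_ne_top i n

theorem sum_En (i : ι) (N : Finset ℤ) : ∑ n ∈ N, volume.real (S.En i n) ≤ 2 * S.l i := by
  classical
  rw [← Finset.sum_filter_add_sum_filter_not N (fun n => Even n)]
  have h1 := S.sum_En_parity i (N.filter (fun n => Even n)) (by
    intro n hn n' hn' hlt
    rw [Finset.mem_filter] at hn hn'
    obtain ⟨a, ha⟩ := hn.2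
    obtain ⟨b, hb⟩ := hn'.2
    omega)
  have h2 := S.sum_En_parity i (N.filter (fun n => ¬ Even n)) (by
    intro n hn n' hn' hlt
    rw [Finset.mem_filter, Int.not_even_iff_odd] at hn hn'
    obtain ⟨a, ha⟩ := hn.2
    obtain ⟨b, hb⟩ := hn'.2
    omega)
  linarith

open Classical in
/-- transversal part -/
theorem trans_sum (T : Finset ι) {i : ι} (hi : i ∈ T) :
    ∑ j ∈ (S.G T).filter (fun j => S.k i ≤ S.k j ∧ (S.R i ∩ S.R j).Nonempty ∧ S.Trans i j),
      volume.real (S.R i ∩ S.R j) ≤ 672 * S.κ / S.δ * volume.real (S.R i) := by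
  have hκ := S.κ_pos
  have hδ := S.δ_pos
  have hw := S.w_pos
  set P := (S.G T).filter (fun j => S.k i ≤ S.k j ∧ (S.R i ∩ S.R j).Nonempty ∧ S.Trans i j)
    with hP
  set N := P.image (fun j => Int.log 2 (S.θ i j)) with hN
  rw [← Finset.sum_fiberwise_of_maps_to (s := P) (t := N) (g := fun j => Int.log 2 (S.θ i j))
    (fun j hj => Finset.mem_image_of_mem _ hj)]
  have hfib : ∀ n ∈ N, ∑ j ∈ P with Int.log 2 (S.θ i j) = n, volume.real (S.R i ∩ S.R j) ≤
      S.w * (672 * S.κ / S.δ) * volume.real (S.En i n) := by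
    intro n _
    have hsub : P.filter (fun j => Int.log 2 (S.θ i j) = n) = S.clG T i n := by
      ext j
      rw [Finset.mem_filter, hP, Finset.mem_filter, mem_clG, mem_cls, mem_G]
      tauto
    rw [hsub]
    calc ∑ j ∈ S.clG T i n, volume.real (S.R i ∩ S.R j) ≤ ∑ _j ∈ S.clG T i n, S.w * S.a n := by
          apply Finset.sum_le_sum
          intro j hj
          have hc := S.mem_cls.1 (S.mem_clG.1 hj).1
          exact S.overlap (S.θ_pos hc.2.2.2.1) hc.2.2.2.2
      _ = S.w * (S.a n * (S.clG T i n).card) := by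
          rw [Finset.sum_const, nsmul_eq_mul]; ring
      _ ≤ S.w * (672 * S.κ * volume.real (S.Y T i n)) :=
          mul_le_mul_of_nonneg_left (S.clG_card T hi n) hw.le
      _ ≤ S.w * (672 * S.κ / S.δ) * volume.real (S.En i n) := by
          have h1 := S.Y_le T i n
          have h2 : volume.real (S.Y T i n) ≤ volume.real (S.En i n) / S.δ := by
            rw [le_div_iff₀ hδ]; linarith
          calc S.w * (672 * S.κ * volume.real (S.Y T i n)) ≤
                S.w * (672 * S.κ * (volume.real (S.En i n) / S.δ)) := by gcongr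
            _ = _ := by ring
  calc ∑ n ∈ N, ∑ j ∈ P with Int.log 2 (S.θ i j) = n, volume.real (S.R i ∩ S.R j) ≤
        ∑ n ∈ N, S.w * (672 * S.κ / S.δ) * volume.real (S.En i n) := Finset.sum_le_sum hfib
    _ = S.w * (672 * S.κ / S.δ) * ∑ n ∈ N, volume.real (S.En i n) := by rw [Finset.mul_sum]
    _ ≤ S.w * (672 * S.κ / S.δ) * (2 * S.l i) :=
        mul_le_mul_of_nonneg_left (S.sum_En i N) (by positivity)
    _ = 672 * S.κ / S.δ * volume.real (S.R i) := by rw [S.vr_R]; ring

open Classical in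
/-- near-parallel part -/
theorem near_sum (T : Finset ι) (i : ι) :
    ∑ j ∈ T.filter (fun j => S.k i ≤ S.k j ∧ (S.R i ∩ S.R j).Nonempty ∧ ¬ S.Trans i j),
      volume.real (S.R i ∩ S.R j) ≤ 11 * S.A * S.κ * volume.real (S.R i) := by
  have hκ := S.κ_pos
  have hδ := S.δ_pos
  have hw := S.w_pos
  have hA := S.one_le_A
  have hM := S.M_pos
  set P := T.filter (fun j => S.k i ≤ S.k j ∧ (S.R i ∩ S.R j).Nonempty ∧ ¬ S.Trans i j)
    with hP
  have hsub : ∀ j ∈ P, S.E j ⊆ Reg (S.I i) (S.line i) (11 * S.A * S.w) := by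
    intro j hj p hp
    rw [hP, Finset.mem_filter] at hj
    obtain ⟨_, hk, hmeet, ht⟩ := hj
    have hpR := S.E_sub_R j hp
    refine ⟨S.I_sub hmeet hk hpR.1, (S.dist_of_mem_R hmeet hpR).trans ?_⟩
    unfold Trans at ht
    rw [not_lt] at ht
    nlinarith
  have hfin : volume (Reg (S.I i) (S.line i) (11 * S.A * S.w)) ≠ ∞ :=
    volR_ne_top (measurableSet_D _ _) (S.vol_I_ne_top i) (S.line_meas i) _
  have h1 := S.sum_E_le P hfin hsub
  rw [vr_Reg (show MeasurableSet (S.I i) from measurableSet_D _ _) (S.line_meas i)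
    (by positivity), vr_I] at h1
  have h2 : S.δ * ∑ j ∈ P, volume.real (S.R i ∩ S.R j) ≤ ∑ j ∈ P, volume.real (S.E j) := by
    rw [Finset.mul_sum]
    apply Finset.sum_le_sum
    intro j _
    refine le_trans ?_ (S.E_dens j)
    exact mul_le_mul_of_nonneg_left
      (measureReal_mono Set.inter_subset_right (S.vol_R_ne_top j)) hδ.le
  have h3 := h2.trans h1
  rw [S.vr_R]
  unfold κ
  have h4 : S.δ * ∑ j ∈ P, volume.real (S.R i ∩ S.R j) ≤
      S.δ * (11 * S.A * (S.M / S.δ) * (S.l i * (2 * S.w))) := by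
    have : S.δ * (11 * S.A * (S.M / S.δ) * (S.l i * (2 * S.w))) =
        S.M * (S.l i * (2 * (11 * S.A * S.w))) := by
      field_simp
    rw [this]; exact h3
  exact le_of_mul_le_mul_left h4 hδ

/-- the packing constant -/
noncomputable def C1 : ℝ := 672 * S.κ / S.δ + 11 * S.A * S.κ

open Classical in
/-- packing inside the first generation -/
theorem pack (T : Finset ι) {i : ι} (hi : i ∈ T) :
    ∑ j ∈ (S.G T).filter (fun j => S.k i ≤ S.k j), volume.real (S.R i ∩ S.R j) ≤
      S.C1 * volume.real (S.R i) := by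
  have h0 : ∀ j, ¬ (S.R i ∩ S.R j).Nonempty → volume.real (S.R i ∩ S.R j) = 0 := by
    intro j hj
    rw [Set.not_nonempty_iff_eq_empty.1 hj]; simp
  have e1 : ∑ j ∈ (S.G T).filter (fun j => S.k i ≤ S.k j), volume.real (S.R i ∩ S.R j) ≤
      ∑ j ∈ (S.G T).filter (fun j => S.k i ≤ S.k j ∧ (S.R i ∩ S.R j).Nonempty ∧ S.Trans i j),
        volume.real (S.R i ∩ S.R j) +
      ∑ j ∈ T.filter (fun j => S.k i ≤ S.k j ∧ (S.R i ∩ S.R j).Nonempty ∧ ¬ S.Trans i j),
        volume.real (S.R i ∩ S.R j) := by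
    rw [Finset.sum_filter, Finset.sum_filter, Finset.sum_filter]
    have hGT : S.G T ⊆ T := fun j hj => (S.mem_G.1 hj).1
    calc ∑ j ∈ S.G T, (if S.k i ≤ S.k j then volume.real (S.R i ∩ S.R j) else 0) ≤
        ∑ j ∈ S.G T, ((if S.k i ≤ S.k j ∧ (S.R i ∩ S.R j).Nonempty ∧ S.Trans i j then
          volume.real (S.R i ∩ S.R j) else 0) +
          (if S.k i ≤ S.k j ∧ (S.R i ∩ S.R j).Nonempty ∧ ¬ S.Trans i j then
          volume.real (S.R i ∩ S.R j) else 0)) := by
          apply Finset.sum_le_sum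
          intro j _
          by_cases h1 : S.k i ≤ S.k j
          · by_cases h2 : (S.R i ∩ S.R j).Nonempty
            · by_cases h3 : S.Trans i j
              · simp [h1, h2, h3]
              · simp [h1, h2, h3]
            · simp [h1, h2, h0 j h2]
          · simp [h1]
      _ ≤ _ := by
          rw [Finset.sum_add_distrib]
          apply add_le_add le_rfl
          apply Finset.sum_le_sum_of_subset_of_nonneg hGT
          intro j _ _
          split_ifs
          · exact measureReal_nonneg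
          · exact le_rfl
  refine e1.trans ?_
  unfold C1
  rw [add_mul]
  exact add_le_add (S.trans_sum T hi) (S.near_sum T i)

/-- counting function -/
noncomputable def N (T : Finset ι) (p : ℝ × ℝ) : ℝ :=
  ∑ i ∈ T, (S.R i).indicator (fun _ => (1 : ℝ)) p

theorem int_ind (i j : ι) : Integrable (fun p : ℝ × ℝ =>
    (S.R i).indicator (fun _ => (1 : ℝ)) p * (S.R j).indicator (fun _ => (1 : ℝ)) p) := by
  have : (fun p : ℝ × ℝ => (S.R i).indicator (fun _ => (1 : ℝ)) p *
      (S.R j).indicator (fun _ => (1 : ℝ)) p) =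
      (S.R i ∩ S.R j).indicator (fun _ => (1 : ℝ)) := by
    ext p
    by_cases h1 : p ∈ S.R i <;> by_cases h2 : p ∈ S.R j <;> simp [h1, h2]
  rw [this]
  refine (integrable_indicator_iff ((S.R_meas i).inter (S.R_meas j))).2 ?_
  exact integrableOn_const
    (ne_top_of_le_ne_top (S.vol_R_ne_top i) (measure_mono Set.inter_subset_left)) (by simp)

theorem integral_ind (i j : ι) : ∫ p : ℝ × ℝ,
    (S.R i).indicator (fun _ => (1 : ℝ)) p * (S.R j).indicator (fun _ => (1 : ℝ)) p =
    volume.real (S.R i ∩ S.R j) := by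
  have : (fun p : ℝ × ℝ => (S.R i).indicator (fun _ => (1 : ℝ)) p *
      (S.R j).indicator (fun _ => (1 : ℝ)) p) =
      (S.R i ∩ S.R j).indicator (fun _ => (1 : ℝ)) := by
    ext p
    by_cases h1 : p ∈ S.R i <;> by_cases h2 : p ∈ S.R j <;> simp [h1, h2]
  rw [this, integral_indicator ((S.R_meas i).inter (S.R_meas j))]
  simp

theorem N_sq (T : Finset ι) (p : ℝ × ℝ) : S.N T p ^ 2 = ∑ i ∈ T, ∑ j ∈ T,
    (S.R i).indicator (fun _ => (1 : ℝ)) p * (S.R j).indicator (fun _ => (1 : ℝ)) p := by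
  unfold N
  rw [sq, Finset.sum_mul_sum]

theorem int_N_sq (T : Finset ι) : Integrable (fun p => S.N T p ^ 2) := by
  simp_rw [S.N_sq T]
  exact integrable_finsetSum _ (fun i _ => integrable_finsetSum _ (fun j _ => S.int_ind i j))

theorem integral_N_sq (T : Finset ι) :
    ∫ p, S.N T p ^ 2 = ∑ i ∈ T, ∑ j ∈ T, volume.real (S.R i ∩ S.R j) := by
  simp_rw [S.N_sq T]
  rw [integral_finsetSum _ (fun i _ => integrable_finsetSum _ (fun j _ => S.int_ind i j))]
  apply Finset.sum_congr rfl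
  intro i _
  rw [integral_finsetSum _ (fun j _ => S.int_ind i j)]
  exact Finset.sum_congr rfl (fun j _ => S.integral_ind i j)

/-- one generation -/
theorem gen_one (T : Finset ι) : ∫ p, S.N (S.G T) p ^ 2 ≤
    2 * S.C1 * ∑ i ∈ S.G T, volume.real (S.R i) := by
  classical
  rw [S.integral_N_sq]
  have hGT : ∀ i ∈ S.G T, i ∈ T := fun j hj => (S.mem_G.1 hj).1
  have h1 : ∑ i ∈ S.G T, ∑ j ∈ (S.G T).filter (fun j => S.k i ≤ S.k j),
      volume.real (S.R i ∩ S.R j) ≤ S.C1 * ∑ i ∈ S.G T, volume.real (S.R i) := by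
    rw [Finset.mul_sum]
    exact Finset.sum_le_sum (fun i hi => S.pack T (hGT i hi))
  have h2 : ∑ i ∈ S.G T, ∑ j ∈ (S.G T).filter (fun j => S.k j ≤ S.k i),
      volume.real (S.R i ∩ S.R j) = ∑ i ∈ S.G T, ∑ j ∈ (S.G T).filter (fun j => S.k i ≤ S.k j),
      volume.real (S.R i ∩ S.R j) := by
    simp_rw [Finset.sum_filter]
    rw [Finset.sum_comm]
    apply Finset.sum_congr rfl
    intro i _
    apply Finset.sum_congr rfl
    intro j _
    rw [Set.inter_comm]
  have h3 : ∑ i ∈ S.G T, ∑ j ∈ S.G T, volume.real (S.R i ∩ S.R j) ≤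
      ∑ i ∈ S.G T, ∑ j ∈ (S.G T).filter (fun j => S.k i ≤ S.k j),
      volume.real (S.R i ∩ S.R j) + ∑ i ∈ S.G T, ∑ j ∈ (S.G T).filter (fun j => S.k j ≤ S.k i),
      volume.real (S.R i ∩ S.R j) := by
    rw [← Finset.sum_add_distrib]
    apply Finset.sum_le_sum
    intro i _
    rw [Finset.sum_filter, Finset.sum_filter, ← Finset.sum_add_distrib]
    apply Finset.sum_le_sum
    intro j _
    have hn : 0 ≤ volume.real (S.R i ∩ S.R j) := measureReal_nonneg
    rcases le_total (S.k i) (S.k j) with h | h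
    · rw [if_pos h]; split_ifs <;> linarith
    · rw [if_pos h]; split_ifs <;> linarith
  rw [h2] at h3
  linarith

theorem R_pos (i : ι) : 0 < volume.real (S.R i) := by
  rw [S.vr_R]
  have := S.l_pos i
  have := S.w_pos
  positivity

/-- mass of the swallowed tubes -/
theorem rest_mass (T P : Finset ι) (hP : ∀ j ∈ P, S.R j ⊆ S.Om T) :
    ∑ j ∈ P, volume.real (S.R j) ≤ (1 / 2) * ∑ j ∈ T, volume.real (S.R j) := by
  have hδ := S.δ_pos
  have hM := S.M_pos
  have hb := S.Om_bound T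
  have hfinT : ∑ j ∈ T, volume (S.R j) ≠ ∞ := by
    rw [ENNReal.sum_ne_top]; intro j _; exact S.vol_R_ne_top j
  have hfin : volume (S.Om T) ≠ ∞ :=
    ne_top_of_le_ne_top (ENNReal.mul_ne_top ENNReal.ofReal_ne_top hfinT) hb
  have h1 : volume.real (S.Om T) ≤ S.δ / (2 * S.M) * ∑ j ∈ T, volume.real (S.R j) := by
    rw [Measure.real]
    refine (ENNReal.toReal_mono (ENNReal.mul_ne_top ENNReal.ofReal_ne_top hfinT) hb).trans ?_
    rw [ENNReal.toReal_mul, ENNReal.toReal_ofReal (by positivity),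
      ENNReal.toReal_sum (fun j _ => S.vol_R_ne_top j)]
    rfl
  have h2 := S.sum_E_le P hfin (fun j hj => (S.E_sub_R j).trans (hP j hj))
  have h3 : S.δ * ∑ j ∈ P, volume.real (S.R j) ≤ ∑ j ∈ P, volume.real (S.E j) := by
    rw [Finset.mul_sum]
    exact Finset.sum_le_sum (fun j _ => S.E_dens j)
  have h4 : S.M * volume.real (S.Om T) ≤ S.δ * ((1 / 2) * ∑ j ∈ T, volume.real (S.R j)) := by
    calc S.M * volume.real (S.Om T) ≤ S.M * (S.δ / (2 * S.M) * ∑ j ∈ T, volume.real (S.R j)) :=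
          mul_le_mul_of_nonneg_left h1 hM.le
      _ = _ := by field_simp
  exact le_of_mul_le_mul_left (h3.trans (h2.trans h4)) hδ

/-- **Kakeya without selection.** -/
theorem kakeya_aux : ∀ (c : ℕ) (T : Finset ι), T.card = c →
    ∫ p, S.N T p ^ 2 ≤ 24 * S.C1 * ∑ i ∈ T, volume.real (S.R i) := by
  classical
  have hC1 : 0 ≤ S.C1 := by
    unfold C1
    have := S.κ_pos
    have := S.δ_pos
    have := S.one_le_A
    positivity
  intro c
  induction c using Nat.strong_induction_on with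
  | _ c ih =>
    intro T hT
    set P := T.filter (fun j => S.R j ⊆ S.Om T) with hP
    have hrest := S.rest_mass T P (fun j hj => (Finset.mem_filter.1 hj).2)
    have hsplit : ∀ f : ι → ℝ, ∑ i ∈ T, f i = ∑ i ∈ P, f i + ∑ i ∈ S.G T, f i := by
      intro f
      unfold G
      rw [hP, Finset.sum_filter_add_sum_filter_not]
    by_cases hPT : P = T
    · rw [hPT] at hrest
      have h0 : ∑ j ∈ T, volume.real (S.R j) ≤ 0 := by linarith
      have hT0 : T = ∅ := by
        by_contra hne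
        obtain ⟨i, hi⟩ := Finset.nonempty_iff_ne_empty.2 hne
        have := Finset.sum_pos (fun j (_ : j ∈ T) => S.R_pos j) ⟨i, hi⟩
        linarith
      rw [hT0]
      simp [N]
    · have hlt : P.card < c := by
        rw [← hT]
        exact Finset.card_lt_card (Finset.ssubset_iff_subset_ne.2 ⟨Finset.filter_subset _ _, hPT⟩)
      have hih := ih P.card hlt P rfl
      have hg := S.gen_one T
      have hN : ∀ p, S.N T p = S.N P p + S.N (S.G T) p := by
        intro p; unfold N; rw [hsplit]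
      have hpt : ∀ p, S.N T p ^ 2 ≤ 4 * S.N (S.G T) p ^ 2 + (4 / 3) * S.N P p ^ 2 := by
        intro p
        rw [hN]
        nlinarith [sq_nonneg (3 * S.N (S.G T) p - S.N P p)]
      have hint : ∫ p, S.N T p ^ 2 ≤
          4 * (∫ p, S.N (S.G T) p ^ 2) + (4 / 3) * (∫ p, S.N P p ^ 2) := by
        rw [← integral_const_mul, ← integral_const_mul, ← integral_add
          ((S.int_N_sq _).const_mul _) ((S.int_N_sq _).const_mul _)]
        exact integral_mono (S.int_N_sq T)
          (((S.int_N_sq _).const_mul _).add ((S.int_N_sq _).const_mul _)) hpt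
      have hGle : ∑ i ∈ S.G T, volume.real (S.R i) ≤ ∑ i ∈ T, volume.real (S.R i) := by
        rw [hsplit]
        have : 0 ≤ ∑ i ∈ P, volume.real (S.R i) :=
          Finset.sum_nonneg (fun _ _ => measureReal_nonneg)
        linarith
      have e1 : 2 * S.C1 * ∑ i ∈ S.G T, volume.real (S.R i) ≤
          2 * S.C1 * ∑ i ∈ T, volume.real (S.R i) :=
        mul_le_mul_of_nonneg_left hGle (by positivity)
      have e2 : 24 * S.C1 * ∑ i ∈ P, volume.real (S.R i) ≤
          24 * S.C1 * ((1 / 2) * ∑ i ∈ T, volume.real (S.R i)) :=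
        mul_le_mul_of_nonneg_left hrest (by positivity)
      linarith

/-- **Kakeya without selection** for every finite family of tubes of the system. -/
theorem kakeya (T : Finset ι) :
    ∫ p, S.N T p ^ 2 ≤ 24 * S.C1 * ∑ i ∈ T, volume.real (S.R i) :=
  S.kakeya_aux T.card T rfl

theorem δ_le_one (i : ι) : S.δ ≤ 1 := by
  have h1 := S.E_dens i
  have h2 : volume.real (S.E i) ≤ volume.real (S.R i) :=
    measureReal_mono (S.E_sub_R i) (S.vol_R_ne_top i)
  have h3 := S.R_pos i
  have h4 : S.δ * volume.real (S.R i) ≤ 1 * volume.real (S.R i) := by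
    rw [one_mul]; exact h1.trans h2
  exact le_of_mul_le_mul_right h4 h3

/-- explicit constant: `∫ N² ≤ 16392 · (A M / δ²) · ∑ |R|`. -/
theorem kakeya' (T : Finset ι) :
    ∫ p, S.N T p ^ 2 ≤ 16392 * (S.A * S.M / S.δ ^ 2) * ∑ i ∈ T, volume.real (S.R i) := by
  rcases T.eq_empty_or_nonempty with h | ⟨i, hi⟩
  · subst h; simp [N]
  · refine (S.kakeya T).trans ?_
    apply mul_le_mul_of_nonneg_right _ (Finset.sum_nonneg (fun _ _ => measureReal_nonneg))
    have h1 := S.δ_le_one i
    have h2 := S.δ_pos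
    have h3 := S.M_pos
    have h4 := S.one_le_A
    unfold C1 κ
    have e1 : 672 * (S.M / S.δ) / S.δ = 672 * S.M / S.δ ^ 2 := by field_simp
    have e2 : 11 * S.A * (S.M / S.δ) = 11 * S.A * S.M * S.δ / S.δ ^ 2 := by field_simp
    rw [e1, e2, ← add_div, mul_div_assoc', mul_div_assoc']
    apply div_le_div_of_nonneg_right _ (by positivity)
    have : S.M ≤ S.A * S.M := by nlinarith
    have : S.A * S.M * S.δ ≤ S.A * S.M := by
      have : 0 < S.A * S.M := by positivity
      nlinarith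
    nlinarith

end Sys

end Vale.Agent.P112.H310
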