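import Vale.Agent.P112.H310.Sys

/-!
P112 / H310: local packing, saturated boxes, the exceptional set `Ω`.
-/

namespace Vale.Agent.P112.H310

open MeasureTheory Set
open scoped ENNReal BigOperators

namespace Sys

variable {ι : Type*} (S : Sys ι)

open Classical in
/-- shorter tubes meeting `i` transversally, with slope difference in `[2^n, 2^(n+1))` -/
noncomputable def cls (T : Finset ι) (i : ι) (n : ℤ) : Finset ι :=
  T.filter (fun j => S.k i ≤ S.k j ∧ (S.R i ∩ S.R j).Nonempty ∧ S.Trans i j ∧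
    Int.log 2 (S.θ i j) = n)

/-- overlap weight -/
noncomputable def a (n : ℤ) : ℝ := 8 * S.w / (2 : ℝ) ^ n

/-- `M / δ` -/
noncomputable def κ : ℝ := S.M / S.δ

theorem κ_pos : 0 < S.κ := div_pos S.M_pos S.δ_pos

theorem a_pos (n : ℤ) : 0 < S.a n := by
  have := S.w_pos
  unfold a; positivity

theorem mem_cls {T : Finset ι} {i j : ι} {n : ℤ} : j ∈ S.cls T i n ↔
    j ∈ T ∧ S.k i ≤ S.k j ∧ (S.R i ∩ S.R j).Nonempty ∧ S.Trans i j ∧
    Int.log 2 (S.θ i j) = n := by
  classical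
  unfold cls; rw [Finset.mem_filter]

theorem θ_low {i j : ι} {n : ℤ} (h : 0 < S.θ i j) (hn : Int.log 2 (S.θ i j) = n) :
    (2 : ℝ) ^ n ≤ S.θ i j := by
  rw [← hn]; exact_mod_cast Int.zpow_log_le_self (by norm_num) h

theorem θ_up {i j : ι} {n : ℤ} (hn : Int.log 2 (S.θ i j) = n) :
    S.θ i j < 2 * (2 : ℝ) ^ n := by
  have hup : S.θ i j < (2 : ℝ) ^ (n + 1) := by
    rw [← hn]; exact_mod_cast Int.lt_zpow_succ_log_self (b := 2) (by norm_num) (S.θ i j)
  rw [zpow_add₀ (by norm_num)] at hup; linarith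

theorem I_eq_of {k : ℕ} {m : ℤ} {j : ι} {x : ℝ} (hk : S.k j = k) (hx : x ∈ S.I j)
    (hx' : x ∈ D k m) : S.I j = D k m := by
  unfold I at *
  rw [hk] at *
  by_cases h : S.m j = m
  · rw [h]
  · exact absurd hx' (Set.disjoint_left.1 (D_disj k h) hx)

/-- local packing at one length -/
theorem lp (T : Finset ι) (i : ι) (n : ℤ) (k : ℕ) (m : ℤ) (P : Finset ι)
    (hP : ∀ j ∈ P, j ∈ S.cls T i n ∧ S.k j = k ∧ S.X i j ∈ D k m) :
    S.a n * (P.card : ℝ) ≤ 32 * S.κ * volume.real (S.En i n ∩ D k m) := by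
  have hw := S.w_pos
  have hA := S.one_le_A
  set lam : ℝ := (2 : ℝ)⁻¹ ^ k with hlam
  have hlam0 : 0 < lam := by rw [hlam]; positivity
  have h2n : (0 : ℝ) < (2 : ℝ) ^ n := by positivity
  have hmeas : MeasurableSet (S.En i n ∩ D k m) := (S.En_meas i n).inter (measurableSet_D _ _)
  have hfin : volume (S.En i n ∩ D k m) ≠ ∞ :=
    ne_top_of_le_ne_top (vol_D_ne_top k m) (measure_mono Set.inter_subset_right)
  set U : Set (ℝ × ℝ) := Reg (S.En i n ∩ D k m) (S.line i) (4 * (2 : ℝ) ^ n * lam) with hU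
  have hUfin : volume U ≠ ∞ := volR_ne_top hmeas hfin (S.line_meas i) _
  have hsub : ∀ j ∈ P, S.E j ⊆ U := by
    intro j hj p hp
    obtain ⟨hc, hk, hX⟩ := hP j hj
    rw [mem_cls] at hc
    obtain ⟨_, hkk, hmeet, ht, hn⟩ := hc
    have hI := S.I_eq_of hk (S.X_mem hmeet).2 hX
    have hpR := S.E_sub_R j hp
    refine ⟨⟨S.proj_E hmeet hkk ht hn hp, ?_⟩, ?_⟩
    · rw [← hI]; exact hpR.1
    · refine (S.dist_of_mem_R hmeet hpR).trans ?_
      have hl : S.l j = lam := by unfold l; rw [hk]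
      have hup := S.θ_up hn
      unfold Trans at ht
      rw [hl] at ht ⊢
      have e1 : S.θ i j * lam ≤ 2 * (2 : ℝ) ^ n * lam := by gcongr
      have e2 : 3 * S.w ≤ 8 * S.A * S.w := by nlinarith
      linarith
  have h1 := S.sum_E_le P hUfin hsub
  have h2 : (P.card : ℝ) * (S.δ * (lam * (2 * S.w))) ≤ ∑ j ∈ P, volume.real (S.E j) := by
    rw [← nsmul_eq_mul, ← Finset.sum_const]
    apply Finset.sum_le_sum
    intro j hj
    have hl : S.l j = lam := by unfold l; rw [(hP j hj).2.1]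
    rw [← hl]; exact S.dens j
  have h3 : volume.real U = volume.real (S.En i n ∩ D k m) * (2 * (4 * (2 : ℝ) ^ n * lam)) :=
    vr_Reg hmeas (S.line_meas i) (by positivity)
  rw [h3] at h1
  have h4 := h2.trans h1
  have hδ := S.δ_pos
  set V := volume.real (S.En i n ∩ D k m) with hV
  have hV0 : 0 ≤ V := measureReal_nonneg
  -- divide
  have h5 : (P.card : ℝ) * S.w * S.δ ≤ S.M * V * 4 * (2 : ℝ) ^ n := by
    have : (P.card : ℝ) * S.w * S.δ * (2 * lam) ≤ S.M * V * 4 * (2 : ℝ) ^ n * (2 * lam) := by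
      nlinarith
    exact le_of_mul_le_mul_right this (by positivity)
  unfold a κ
  rw [div_mul_eq_mul_div, div_le_iff₀ h2n, mul_div_assoc', div_mul_eq_mul_div,
    div_mul_eq_mul_div, le_div_iff₀ hδ]
  nlinarith

open Classical in
/-- a dyadic interval over which the class `n` of `i` has a lot of tubes at least as long -/
def Sat (T : Finset ι) (i : ι) (n : ℤ) (k : ℕ) (m : ℤ) : Prop :=
  320 * S.κ * (2 : ℝ)⁻¹ ^ k <
    S.a n * (((S.cls T i n).filter (fun j => S.k j ≤ k ∧ S.X i j ∈ D k m)).card : ℝ)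

/-- maximal level -/
noncomputable def K (T : Finset ι) : ℕ := T.sup S.k

theorem le_K {T : Finset ι} {j : ι} (h : j ∈ T) : S.k j ≤ S.K T := Finset.le_sup h

/-- half-height of a box -/
noncomputable def rad (q : ι × ι × ℕ) : ℝ :=
  4 * (2 : ℝ) ^ (Int.log 2 (S.θ q.1 q.2.1)) * (2 : ℝ)⁻¹ ^ q.2.2

/-- the position of a box -/
noncomputable def pos (q : ι × ι × ℕ) : ℤ := ⌊S.X q.1 q.2.1 * 2 ^ q.2.2⌋

/-- the box over a saturated interval -/
def box (q : ι × ι × ℕ) : Set (ℝ × ℝ) := Reg (D q.2.2 (S.pos q)) (S.line q.1) (S.rad q)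

open Classical in
/-- indices of boxes -/
noncomputable def Ix (T : Finset ι) : Finset (ι × ι × ℕ) :=
  (T ×ˢ T ×ˢ Finset.range (S.K T + 1)).filter (fun q =>
    S.Sat T q.1 (Int.log 2 (S.θ q.1 q.2.1)) q.2.2 (S.pos q) ∧
    8 * S.A * S.w ≤ 2 * (2 : ℝ) ^ (Int.log 2 (S.θ q.1 q.2.1)) * (2 : ℝ)⁻¹ ^ q.2.2)

/-- the exceptional set -/
def Om (T : Finset ι) : Set (ℝ × ℝ) := ⋃ q ∈ S.Ix T, S.box q

theorem box_meas (q : ι × ι × ℕ) : MeasurableSet (S.box q) :=
  measurableSet_Reg (measurableSet_D _ _) (S.line_meas _) _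

theorem Om_meas (T : Finset ι) : MeasurableSet (S.Om T) :=
  Finset.measurableSet_biUnion _ (fun q _ => S.box_meas q)

/-- the box of a saturated interval swallows the shorter tubes of the class -/
theorem R_sub_Om {T : Finset ι} {i j : ι} {n : ℤ} {k : ℕ} {m : ℤ} (hi : i ∈ T)
    (hj : j ∈ S.cls T i n) (hX : S.X i j ∈ D k m) (hs : S.Sat T i n k m) (hk : k < S.k j) :
    S.R j ⊆ S.Om T := by
  have hw := S.w_pos
  have hA := S.one_le_A
  have hj' := hj
  rw [mem_cls] at hj'
  obtain ⟨hjT, hkk, hmeet, ht, hn⟩ := hj'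
  have hm : ⌊S.X i j * 2 ^ k⌋ = m := mem_D.1 hX
  have hup := S.θ_up hn
  have hθ := S.θ_pos ht
  have hl : S.l j ≤ (2 : ℝ)⁻¹ ^ k := by
    unfold l
    exact pow_le_pow_of_le_one (by norm_num) (by norm_num) hk.le
  have e0 : S.θ i j * S.l j ≤ 2 * (2 : ℝ) ^ n * (2 : ℝ)⁻¹ ^ k :=
    mul_le_mul hup.le hl (S.l_pos j).le (by positivity)
  unfold Trans at ht
  have hq : (i, j, k) ∈ S.Ix T := by
    classical
    unfold Ix
    rw [Finset.mem_filter]
    refine ⟨?_, ?_, ?_⟩
    · simp only [Finset.mem_product, Finset.mem_range]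
      exact ⟨hi, hjT, by have := S.le_K hjT; omega⟩
    · simp only [pos]
      rw [hn, hm]; exact hs
    · simp only
      rw [hn]; linarith
  intro p hp
  unfold Om
  simp only [Set.mem_iUnion]
  refine ⟨(i, j, k), hq, ?_, ?_⟩
  · have hIj : S.I j ⊆ D k m := by
      have := D_subset_of_mem hk.le (S.X_mem hmeet).2 hX
      exact this
    simp only [pos]
    rw [hm]
    exact hIj hp.1
  · refine (S.dist_of_mem_R hmeet hp).trans ?_
    simp only [rad]
    rw [hn]
    have e2 : 3 * S.w ≤ 8 * S.A * S.w := by nlinarith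
    linarith

/-- vertical density in a box -/
theorem ball_dens {T : Finset ι} {q : ι × ι × ℕ} (hq : q ∈ S.Ix T) {x : ℝ}
    (hx : x ∈ D q.2.2 (S.pos q)) :
    10 * S.κ * (2 * S.rad q) ≤ ∑ j ∈ T, volume.real
      (Metric.closedBall (S.line q.1 x) (S.rad q) ∩ (Prod.mk x ⁻¹' (S.R j))) := by
  classical
  obtain ⟨i, j', k⟩ := q
  unfold Ix at hq
  rw [Finset.mem_filter] at hq
  obtain ⟨-, hs, hr⟩ := hq
  simp only at hs hr hx ⊢
  set n := Int.log 2 (S.θ i j') with hn
  set m := S.pos (i, j', k) with hm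
  have hw := S.w_pos
  have hA := S.one_le_A
  have hrad : S.rad (i, j', k) = 4 * (2 : ℝ) ^ n * (2 : ℝ)⁻¹ ^ k := rfl
  rw [hrad]
  unfold Sat at hs
  set P := (S.cls T i n).filter (fun j => S.k j ≤ k ∧ S.X i j ∈ D k m) with hP
  have hPT : P ⊆ T := by
    intro j hj
    rw [hP, Finset.mem_filter, mem_cls] at hj
    exact hj.1.1
  have h1 : (P.card : ℝ) * (2 * S.w) ≤ ∑ j ∈ P, volume.real
      (Metric.closedBall (S.line i x) (4 * (2 : ℝ) ^ n * (2 : ℝ)⁻¹ ^ k) ∩
        (Prod.mk x ⁻¹' (S.R j))) := by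
    rw [← nsmul_eq_mul, ← Finset.sum_const]
    apply Finset.sum_le_sum
    intro j hj
    rw [hP, Finset.mem_filter, mem_cls] at hj
    obtain ⟨⟨hjT, hkk, hmeet, ht, hnj⟩, hkj, hXj⟩ := hj
    have hxI : x ∈ S.I j := D_subset_of_mem hkj hXj (S.X_mem hmeet).2 hx
    have hd : |S.line j x - S.line i x| ≤ 2 * S.w + S.θ i j * (2 : ℝ)⁻¹ ^ k :=
      S.line_dist hmeet (abs_sub_le_of_mem_D hx hXj)
    have hup := S.θ_up hnj
    have e0 : S.θ i j * (2 : ℝ)⁻¹ ^ k ≤ 2 * (2 : ℝ) ^ n * (2 : ℝ)⁻¹ ^ k := by gcongr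
    have hsub : Metric.closedBall (S.line j x) S.w ⊆
        (Metric.closedBall (S.line i x) (4 * (2 : ℝ) ^ n * (2 : ℝ)⁻¹ ^ k) ∩
        (Prod.mk x ⁻¹' (S.R j))) := by
      intro y hy
      rw [Metric.mem_closedBall, Real.dist_eq] at hy
      refine ⟨?_, hxI, hy⟩
      rw [Metric.mem_closedBall, Real.dist_eq]
      have := abs_sub_le y (S.line j x) (S.line i x)
      have e2 : 3 * S.w ≤ 8 * S.A * S.w := by nlinarith
      linarith
    have hb : volume.real (Metric.closedBall (S.line j x) S.w) = 2 * S.w := by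
      rw [Measure.real, Real.volume_closedBall, ENNReal.toReal_ofReal (by positivity)]
    rw [← hb]
    refine measureReal_mono hsub ?_
    apply ne_top_of_le_ne_top _ (measure_mono Set.inter_subset_left)
    rw [Real.volume_closedBall]; exact ENNReal.ofReal_ne_top
  have h2 : ∑ j ∈ P, volume.real
      (Metric.closedBall (S.line i x) (4 * (2 : ℝ) ^ n * (2 : ℝ)⁻¹ ^ k) ∩
        (Prod.mk x ⁻¹' (S.R j))) ≤ ∑ j ∈ T, volume.real
      (Metric.closedBall (S.line i x) (4 * (2 : ℝ) ^ n * (2 : ℝ)⁻¹ ^ k) ∩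
        (Prod.mk x ⁻¹' (S.R j))) :=
    Finset.sum_le_sum_of_subset_of_nonneg hPT (fun _ _ _ => measureReal_nonneg)
  refine le_trans ?_ (h1.trans h2)
  have h2n : (0 : ℝ) < (2 : ℝ) ^ n := by positivity
  unfold a at hs
  rw [div_mul_eq_mul_div, lt_div_iff₀ h2n] at hs
  nlinarith

/-- measure of the sections of the exceptional set -/
theorem sec_bound (T : Finset ι) (x : ℝ) :
    volume (Prod.mk x ⁻¹' (S.Om T)) ≤
      ENNReal.ofReal (S.δ / (2 * S.M)) * ∑ j ∈ T, volume (Prod.mk x ⁻¹' (S.R j)) := by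
  classical
  have hκ := S.κ_pos
  set P := (S.Ix T).filter (fun q => x ∈ D q.2.2 (S.pos q)) with hP
  have hrad : ∀ q, 0 < S.rad q := by intro q; unfold rad; positivity
  obtain ⟨u, hu, hdisj, hcov⟩ :=
    Vitali.exists_disjoint_subfamily_covering_enlargement_closedBall
      (P : Set (ι × ι × ℕ)) (fun q => S.line q.1 x) S.rad (∑ q ∈ P, S.rad q)
      (fun q hq => Finset.single_le_sum (f := S.rad) (fun q _ => (hrad q).le) hq) 5 (by norm_num)
  have hufin : u.Finite := P.finite_toSet.subset hu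
  set v := hufin.toFinset with hv
  have hvu : ∀ q, q ∈ v ↔ q ∈ u := fun q => hufin.mem_toFinset
  have hsec : Prod.mk x ⁻¹' (S.Om T) ⊆
      ⋃ q ∈ v, Metric.closedBall (S.line q.1 x) (5 * S.rad q) := by
    intro y hy
    simp only [Om, Set.mem_preimage, Set.mem_iUnion] at hy
    obtain ⟨q, hq, hqy⟩ := hy
    have hqP : q ∈ P := by
      rw [hP, Finset.mem_filter]; exact ⟨hq, hqy.1⟩
    obtain ⟨q', hq', hsub⟩ := hcov q (Finset.mem_coe.2 hqP)
    simp only [Set.mem_iUnion]
    refine ⟨q', (hvu q').2 hq', hsub ?_⟩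
    rw [Metric.mem_closedBall, Real.dist_eq]
    exact hqy.2
  have h1 : volume (Prod.mk x ⁻¹' (S.Om T)) ≤ ∑ q ∈ v, ENNReal.ofReal (2 * (5 * S.rad q)) := by
    refine (measure_mono hsec).trans ((measure_biUnion_finset_le _ _).trans ?_)
    apply Finset.sum_le_sum
    intro q _
    rw [Real.volume_closedBall]
  have hsecfin : ∀ j, volume (Prod.mk x ⁻¹' (S.R j)) ≠ ∞ := by
    intro j
    unfold R
    rw [section_Reg]
    split_ifs
    · rw [Real.volume_closedBall]; exact ENNReal.ofReal_ne_top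
    · simp
  have h2 : ∑ q ∈ v, 10 * S.κ * (2 * S.rad q) ≤
      ∑ j ∈ T, volume.real (Prod.mk x ⁻¹' (S.R j)) := by
    calc ∑ q ∈ v, 10 * S.κ * (2 * S.rad q) ≤ ∑ q ∈ v, ∑ j ∈ T, volume.real
          (Metric.closedBall (S.line q.1 x) (S.rad q) ∩ (Prod.mk x ⁻¹' (S.R j))) := by
          apply Finset.sum_le_sum
          intro q hq
          have := hu ((hvu q).1 hq)
          rw [Finset.mem_coe, hP, Finset.mem_filter] at this
          exact S.ball_dens this.1 this.2
      _ = ∑ j ∈ T, ∑ q ∈ v, volume.real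
          (Metric.closedBall (S.line q.1 x) (S.rad q) ∩ (Prod.mk x ⁻¹' (S.R j))) :=
          Finset.sum_comm
      _ ≤ ∑ j ∈ T, volume.real (Prod.mk x ⁻¹' (S.R j)) := by
          apply Finset.sum_le_sum
          intro j _
          rw [← measureReal_biUnion_finset (μ := volume) (s := v)
            (f := fun q => Metric.closedBall (S.line q.1 x) (S.rad q) ∩ (Prod.mk x ⁻¹' (S.R j)))
            ?_ ?_ ?_]
          · refine measureReal_mono ?_ (hsecfin j)
            intro y hy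
            simp only [Set.mem_iUnion] at hy
            obtain ⟨q, _, hy⟩ := hy
            exact hy.2
          · intro q hq q' hq' hne
            have := hdisj ((hvu q).1 hq) ((hvu q').1 hq') hne
            exact this.mono Set.inter_subset_left Set.inter_subset_left
          · intro q _
            refine measurableSet_closedBall.inter ?_
            exact measurable_prodMk_left (S.R_meas j)
          · intro q _
            apply ne_top_of_le_ne_top _ (measure_mono Set.inter_subset_left)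
            rw [Real.volume_closedBall]; exact ENNReal.ofReal_ne_top
  have h3 : ∑ j ∈ T, volume (Prod.mk x ⁻¹' (S.R j)) =
      ENNReal.ofReal (∑ j ∈ T, volume.real (Prod.mk x ⁻¹' (S.R j))) := by
    rw [ENNReal.ofReal_sum_of_nonneg (fun _ _ => measureReal_nonneg)]
    apply Finset.sum_congr rfl
    intro j _
    rw [ofReal_measureReal (hsecfin j)]
  rw [h3, ← ENNReal.ofReal_mul (by have := S.δ_pos; have := S.M_pos; positivity)]
  refine h1.trans ?_
  rw [← ENNReal.ofReal_sum_of_nonneg (fun q _ => by have := hrad q; positivity)]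
  apply ENNReal.ofReal_le_ofReal
  have h4 : ∑ q ∈ v, 2 * (5 * S.rad q) = (1 / (2 * S.κ)) * ∑ q ∈ v, 10 * S.κ * (2 * S.rad q) := by
    rw [Finset.mul_sum]
    apply Finset.sum_congr rfl
    intro q _
    field_simp
    ring
  rw [h4]
  have h5 : S.δ / (2 * S.M) = 1 / (2 * S.κ) := by
    unfold κ
    have := S.δ_pos.ne'
    have := S.M_pos.ne'
    field_simp
  rw [h5]
  exact mul_le_mul_of_nonneg_left h2 (by positivity)

/-- measure of the exceptional set -/
theorem Om_bound (T : Finset ι) :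
    volume (S.Om T) ≤ ENNReal.ofReal (S.δ / (2 * S.M)) * ∑ j ∈ T, volume (S.R j) := by
  rw [Measure.volume_eq_prod, Measure.prod_apply (S.Om_meas T)]
  refine (lintegral_mono (fun x => S.sec_bound T x)).trans ?_
  rw [lintegral_const_mul]
  · rw [lintegral_finsetSum]
    · apply le_of_eq
      congr 1
      apply Finset.sum_congr rfl
      intro j _
      rw [Measure.prod_apply (S.R_meas j)]
    · intro j _
      exact measurable_measure_prodMk_left (S.R_meas j)
  · exact Finset.measurable_sum _ (fun j _ => measurable_measure_prodMk_left (S.R_meas j))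

end Sys

end Vale.Agent.P112.H310
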