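import Vale.Agent.P112.H8.T3N

/-!
# P112 / H310 / [T3own]: the antichain estimate with the OWN density

Single-valued families whose pairs over each other are strongly separated in slope: only the
own density `k` of the tiles enters, the general density `δ` is multiplied by `(1+R)^(-M1)`.
-/

open MeasureTheory Set
open scoped ENNReal ContDiff

namespace Vale.Agent.P112.H310

open Vale.Agent.P112.T
open Vale.Agent.P112.H8

variable {M : ℕ}

theorem t3own (M a M1 : ℕ) (C0 : ℝ) (hM : a + 2 + M1 ≤ M) (h1 : StN1 M C0) :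
    ∃ C : ℝ, 0 < C ∧ ∀ (N : ℝ) (κ : Ker M), κ.Bd N C0 →
    ∀ (τ : ℝ) (u : ℝ × ℝ → ℝ), Field u → ∀ (n : ℕ) (E : ℕ → Set (ℝ × ℝ)),
    (∀ j, MeasurableSet (E j)) → (∀ i j : ℕ, i ≠ j → Disjoint (E i) (E j)) →
    ∀ δ : ℝ, 0 < δ → DensN N u E n τ a δ → ∀ R k : ℝ, 0 ≤ R → 0 ≤ k →
    (∀ i j : ℕ, i < j → j < n → ∀ z ∈ E j, ∀ z' ∈ E i, |z.1 - z'.1| ≤ 1 / 2 ^ i →
      |off u z' z| ≤ 2 + R → R * 2 ^ j ≤ N * |u z - u z'|) →
    (∀ i < n, ∀ z' ∈ E i, volume {z : ℝ × ℝ | z ∈ E i ∧ |z.1 - z'.1| ≤ 1 / 2 ^ i ∧
      |off u z' z| ≤ 2 + R ∧ N * |u z - u z'| ≤ R * 2 ^ i} ≤ ENNReal.ofReal (k / 2 ^ i)) →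
    ∀ g : ℝ × ℝ → ℝ, Nice g → (∀ z, |g z| ≤ 1) →
      ∫ ζ, (κ.FS u g E n ζ) ^ 2 ≤ C * (k + δ / (1 + R) ^ M1) * ∫ z in Un E n, |g z| := by
  classical
  obtain ⟨C, hC, hT1'⟩ := h1
  refine ⟨2 * (3 * (C * 4 ^ (a+2))), by positivity, ?_⟩
  intro N κ hκN τ u hu n E hE hd δ hδ hD R k hR hk0 hsep hown g hg hg1
  have hN : 1 ≤ N := hκN.one_le
  have hT1 := hT1' N κ hκN
  obtain ⟨U, hU⟩ := hu.bdd
  set S := Un E n with hS
  have hSm : MeasurableSet S := Un_meas hE n
  set lev := levf E n with hlev
  have hlm : Measurable lev := levf_meas hE n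
  have hlevn : ∀ z ∈ S, lev z < n := by
    rintro z ⟨j, hj, hz⟩
    rw [hlev, levf_eq hd hj hz]; exact hj
  have hDens : DensG N (gr τ) u volume S lev a δ := by
    rintro z1 ⟨j, hj, hz⟩ lam hlam th c h2 h3 i hi
    have e : lev z1 = j := by rw [hlev, levf_eq hd hj hz]
    rw [e] at h2 hi
    have := hD j hj z1 hz lam hlam th c h2 h3 i hi
    refine this.trans (le_of_eq ?_)
    congr 1
    rw [one_div, inv_pow, div_eq_mul_inv]
  obtain ⟨B, hB, hk⟩ := k_bdd κ
  obtain ⟨B2, hB2, hk2⟩ := k_L1 κ U n
  -- the majorant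
  set b : ℝ × ℝ → ℝ × ℝ → ℝ≥0∞ := fun z z' =>
    if lev z' ≤ lev z ∧ |z.1 - z'.1| ≤ 1 / 2 ^ lev z' ∧
      |off u z' z| ≤ 2 + |u z - u z'| / 2 ^ lev z then
    ENNReal.ofReal (C * 2 ^ lev z') * ENNReal.ofReal (((1 + N * |u z - u z'| / 2 ^ lev z) ^ M)⁻¹)
    else 0 with hb
  have hp : Measurable (fun z : ℝ × ℝ => (2:ℝ) ^ (lev z)) :=
    (measurable_of_countable (fun m : ℕ => (2:ℝ)^m)).comp hlm
  have hum := hu.meas
  have hbm : Measurable (fun p : (ℝ × ℝ) × (ℝ × ℝ) => b p.1 p.2) := by
    rw [hb]
    have hp1 : Measurable (fun p : (ℝ × ℝ) × (ℝ × ℝ) => (2:ℝ) ^ (lev p.1)) :=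
      hp.comp measurable_fst
    have hp2 : Measurable (fun p : (ℝ × ℝ) × (ℝ × ℝ) => (2:ℝ) ^ (lev p.2)) :=
      hp.comp measurable_snd
    have hu1 : Measurable (fun p : (ℝ × ℝ) × (ℝ × ℝ) => u p.1) := hum.comp measurable_fst
    have hu2 : Measurable (fun p : (ℝ × ℝ) × (ℝ × ℝ) => u p.2) := hum.comp measurable_snd
    have hoff : Measurable (fun p : (ℝ × ℝ) × (ℝ × ℝ) => off u p.2 p.1) := by
      unfold off; fun_prop
    refine Measurable.ite ?_ ?_ measurable_const
    · have m1 : Measurable (fun p : (ℝ × ℝ) × (ℝ × ℝ) => |p.1.1 - p.2.1|) := by fun_prop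
      have m2 : Measurable (fun p : (ℝ × ℝ) × (ℝ × ℝ) => (1:ℝ) / 2 ^ lev p.2) := by fun_prop
      have m3 : Measurable (fun p : (ℝ × ℝ) × (ℝ × ℝ) => |off u p.2 p.1|) := by fun_prop
      have m4 : Measurable (fun p : (ℝ × ℝ) × (ℝ × ℝ) => 2 + |u p.1 - u p.2| / 2 ^ lev p.1) := by
        fun_prop
      exact MeasurableSet.inter (measurableSet_le (hlm.comp measurable_snd)
        (hlm.comp measurable_fst)) (MeasurableSet.inter (measurableSet_le m1 m2)
        (measurableSet_le m3 m4))
    · fun_prop
  have hcase : ∀ z ∈ S, ∀ z' ∈ S, lev z' ≤ lev z →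
      ‖∫ ζ, κ.k (lev z) (u z) z ζ * κ.k (lev z') (u z') z' ζ‖ₑ ≤ b z z' := by
    intro z hz z' hz' hle
    obtain ⟨t1, t2⟩ := hT1 (lev z) (lev z') hle (u z) (u z') z z'
    by_cases h0 : κ.kap (lev z) (lev z') (u z) (u z') z z' = 0
    · unfold Ker.kap at h0
      rw [h0]; simp
    · obtain ⟨t3, t4⟩ := t2 h0
      have hcond : lev z' ≤ lev z ∧ |z.1 - z'.1| ≤ 1 / 2 ^ lev z' ∧
        |off u z' z| ≤ 2 + |u z - u z'| / 2 ^ lev z := ⟨hle, t3, t4⟩
      simp only [hb]
      rw [if_pos hcond, Real.enorm_eq_ofReal_abs, ← ENNReal.ofReal_mul (by positivity)]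
      apply ENNReal.ofReal_le_ofReal
      unfold Ker.kap at t1
      refine t1.trans (le_of_eq ?_)
      rw [div_eq_mul_inv]
  have hκ : ∀ᵐ z ∂(volume.restrict S), ∀ᵐ z' ∂(volume.restrict S),
      ‖∫ ζ, κ.k (lev z) (u z) z ζ * κ.k (lev z') (u z') z' ζ‖ₑ ≤ b z z' + b z' z := by
    filter_upwards [ae_restrict_mem hSm] with z hz
    filter_upwards [ae_restrict_mem hSm] with z' hz'
    rcases le_total (lev z') (lev z) with hle | hle
    · exact (hcase z hz z' hz' hle).trans le_self_add
    · have : ∫ ζ, κ.k (lev z) (u z) z ζ * κ.k (lev z') (u z') z' ζ =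
          ∫ ζ, κ.k (lev z') (u z') z' ζ * κ.k (lev z) (u z) z ζ := by
        congr 1; ext ζ; ring
      rw [this]
      exact (hcase z' hz' z hz hle).trans le_add_self
  have hmain := tts (volume.restrict S) volume (fun z ζ => κ.k (lev z) (u z) z ζ)
    (k_meas κ (hlm.comp measurable_fst) (hum.comp measurable_fst) measurable_fst measurable_snd)
    (ENNReal.ofReal (B * 2 ^ n)) B2 ENNReal.ofReal_ne_top hB2
    (by
      filter_upwards [ae_restrict_mem hSm] with z hz ζ
      rw [Real.enorm_eq_ofReal_abs]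
      apply ENNReal.ofReal_le_ofReal
      refine (hk _ _ _ _).trans ?_
      have : (2:ℝ)^(lev z) ≤ 2^n := pow_le_pow_right₀ (by norm_num) (hlevn z hz).le
      gcongr)
    (by
      filter_upwards [ae_restrict_mem hSm] with z hz
      exact hk2 (lev z) (hlevn z hz).le (u z) (hU z) z)
    g hg.meas (nice_int hg).integrableOn b hbm hκ
  -- the row sums
  have hRpos : 0 < 1 + R := by linarith
  set δ' : ℝ := δ / (1 + R) ^ M1 with hδ'
  have hδ'pos : 0 ≤ δ' := by positivity
  have hrow : ∀ z' ∈ S, ∫⁻ z in S, ‖g z‖ₑ * b z z' ≤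
      ENNReal.ofReal (3 * (C * 4 ^ (a+2)) * (k + δ')) := by
    intro z' hz'
    set Z : ℝ → Set (ℝ × ℝ) := fun x0 => {z | z ∈ S ∧ lev z' ≤ lev z ∧
      (gr τ).q (lev z') z.1 = (gr τ).q (lev z') x0 ∧
      |off u z' z| ≤ 2 + |u z - u z'| / 2 ^ (lev z)} with hZ
    have hps : ∀ x0, ∫⁻ z in Z x0,
        ENNReal.ofReal (((1 + N * |u z - u z'| / 2 ^ (lev z)) ^ (M - M1))⁻¹) ≤
        ENNReal.ofReal (4 ^ (a+2) * δ * (1/2) ^ (lev z')) := fun x0 =>
      pair_sumN N hN (gr τ) u hum volume S hSm lev hlm n a (M - M1) (by omega) δ hδ.le hlevn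
        hDens z' x0
    have hoff : Measurable (fun z => off u z' z) := by unfold off; fun_prop
    have hZm : ∀ x0, MeasurableSet (Z x0) := by
      intro x0
      have h1 : MeasurableSet {z : ℝ × ℝ | lev z' ≤ lev z} :=
        hlm (measurableSet_Ici (a := lev z'))
      have h2 : MeasurableSet {z : ℝ × ℝ | (gr τ).q (lev z') z.1 = (gr τ).q (lev z') x0} :=
        (((gr τ).meas _).comp measurable_fst) (measurableSet_singleton _)
      have h3 : MeasurableSet {z : ℝ × ℝ | |off u z' z| ≤ 2 + |u z - u z'| / 2 ^ (lev z)} :=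
        measurableSet_le (by fun_prop) (by fun_prop)
      exact hSm.inter (h1.inter (h2.inter h3))
    -- the own set
    set O : Set (ℝ × ℝ) := {z | z ∈ E (lev z') ∧ |z.1 - z'.1| ≤ 1 / 2 ^ lev z' ∧
      |off u z' z| ≤ 2 + R ∧ N * |u z - u z'| ≤ R * 2 ^ lev z'} with hO
    have hOm : MeasurableSet O := by
      have h2 : MeasurableSet {z : ℝ × ℝ | |z.1 - z'.1| ≤ 1 / 2 ^ lev z'} :=
        measurableSet_le (by fun_prop) (by fun_prop)
      have h3 : MeasurableSet {z : ℝ × ℝ | |off u z' z| ≤ 2 + R} :=
        measurableSet_le (by fun_prop) (by fun_prop)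
      have h4 : MeasurableSet {z : ℝ × ℝ | N * |u z - u z'| ≤ R * 2 ^ lev z'} :=
        measurableSet_le (by fun_prop) (by fun_prop)
      exact (hE _).inter (h2.inter (h3.inter h4))
    have hz'E : z' ∈ E (lev z') := by
      obtain ⟨j, hj, hz⟩ := hz'
      rw [hlev, levf_eq hd hj hz]; exact hz
    have hOv : volume O ≤ ENNReal.ofReal (k / 2 ^ lev z') := hown _ (hlevn z' hz') z' hz'E
    set f : ℝ × ℝ → ℝ≥0∞ := fun z =>
      ENNReal.ofReal (((1 + N * |u z - u z'| / 2 ^ (lev z)) ^ (M - M1))⁻¹) with hf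
    have hfm : Measurable f := by rw [hf]; fun_prop
    calc ∫⁻ z in S, ‖g z‖ₑ * b z z'
        ≤ ∫⁻ z, (ENNReal.ofReal (C * 2 ^ lev z' / (1 + R) ^ M1) * ((Z z'.1).indicator f z +
          (Z (z'.1 - 1 / 2 ^ lev z')).indicator f z + (Z (z'.1 + 1 / 2 ^ lev z')).indicator f z) +
          ENNReal.ofReal (C * 2 ^ lev z') * O.indicator (fun _ => 1) z) := by
          rw [← lintegral_indicator hSm]
          refine lintegral_mono fun z => ?_
          by_cases hzS : z ∈ S
          · rw [indicator_of_mem hzS]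
            have hg' : ‖g z‖ₑ ≤ 1 := by
              rw [Real.enorm_eq_ofReal_abs]
              calc ENNReal.ofReal |g z| ≤ ENNReal.ofReal 1 := ENNReal.ofReal_le_ofReal (hg1 z)
                _ = 1 := by simp
            calc ‖g z‖ₑ * b z z' ≤ 1 * b z z' := by gcongr
              _ = b z z' := one_mul _
              _ ≤ _ := by
                simp only [hb]
                split_ifs with hc
                · obtain ⟨c1, c2, c3⟩ := hc
                  have hzE : z ∈ E (lev z) := by
                    obtain ⟨j, hj, hz⟩ := hzS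
                    rw [hlev, levf_eq hd hj hz]; exact hz
                  by_cases hfar : R * 2 ^ lev z ≤ N * |u z - u z'|
                  · -- far pair
                    refine le_trans ?_ le_self_add
                    have hmem : ∀ x0, (gr τ).q (lev z') z.1 = (gr τ).q (lev z') x0 → z ∈ Z x0 :=
                      fun x0 hx => ⟨hzS, c1, hx, c3⟩
                    set t : ℝ := N * |u z - u z'| / 2 ^ (lev z) with ht
                    have hRt : R ≤ t := by rw [ht, le_div_iff₀ (by positivity)]; exact hfar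
                    have ht0 : 0 < 1 + t := by linarith
                    have hle : ENNReal.ofReal (C * 2 ^ lev z') * ENNReal.ofReal (((1 + t) ^ M)⁻¹) ≤
                        ENNReal.ofReal (C * 2 ^ lev z' / (1 + R) ^ M1) * f z := by
                      rw [hf, ← ENNReal.ofReal_mul (by positivity),
                        ← ENNReal.ofReal_mul (by positivity)]
                      apply ENNReal.ofReal_le_ofReal
                      have e1 : (1 + t) ^ M = (1 + t) ^ M1 * (1 + t) ^ (M - M1) := by
                        rw [← pow_add]; congr 1; omega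
                      have e2 : (1 + R) ^ M1 ≤ (1 + t) ^ M1 := by gcongr
                      rw [e1, mul_inv, ← mul_assoc, div_eq_mul_inv]
                      gcongr
                    refine hle.trans ?_
                    gcongr
                    rcases q_near τ (lev z') z.1 z'.1 c2 with h | h | h
                    · rw [indicator_of_mem (hmem _ h)]
                      exact le_add_right le_self_add
                    · rw [indicator_of_mem (hmem _ h) (f := f)]
                      exact le_add_right le_add_self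
                    · rw [indicator_of_mem (hmem _ h) (f := f)]
                      exact le_add_self
                  · -- near pair
                    refine le_trans ?_ le_add_self
                    rw [not_le] at hfar
                    have c3' : |off u z' z| ≤ 2 + R := by
                      refine c3.trans ?_
                      have h5 : |u z - u z'| / 2 ^ lev z ≤ N * |u z - u z'| / 2 ^ lev z := by
                        gcongr
                        exact le_mul_of_one_le_left (abs_nonneg _) hN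
                      have h6 : N * |u z - u z'| / 2 ^ lev z ≤ R := by
                        rw [div_le_iff₀ (by positivity)]; exact hfar.le
                      linarith
                    have hlevE : lev z = lev z' := by
                      rcases c1.lt_or_eq with h | h
                      · exfalso
                        have := hsep _ _ h (hlevn z hzS) z hzE z' hz'E c2 c3'
                        linarith
                      · exact h.symm
                    have hmemO : z ∈ O := by
                      refine ⟨by rw [← hlevE]; exact hzE, c2, c3', ?_⟩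
                      rw [← hlevE]; exact hfar.le
                    rw [indicator_of_mem hmemO]
                    gcongr
                    have h7 : (1:ℝ) ≤ (1 + N * |u z - u z'| / 2 ^ lev z) ^ M := by
                      apply one_le_pow₀
                      have : 0 ≤ N * |u z - u z'| / 2 ^ lev z := by positivity
                      linarith
                    calc ENNReal.ofReal (((1 + N * |u z - u z'| / 2 ^ lev z) ^ M)⁻¹)
                        ≤ ENNReal.ofReal 1 :=
                          ENNReal.ofReal_le_ofReal (inv_le_one_of_one_le₀ h7)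
                      _ = 1 := by simp
                · exact zero_le
          · rw [indicator_of_notMem hzS]; exact zero_le
      _ = ENNReal.ofReal (C * 2 ^ lev z' / (1 + R) ^ M1) * ((∫⁻ z in Z z'.1, f z) +
          (∫⁻ z in Z (z'.1 - 1 / 2 ^ lev z'), f z) +
          (∫⁻ z in Z (z'.1 + 1 / 2 ^ lev z'), f z)) +
          ENNReal.ofReal (C * 2 ^ lev z') * volume O := by
          have m1 := hfm.indicator (hZm z'.1)
          have m2 := hfm.indicator (hZm (z'.1 - 1 / 2 ^ lev z'))
          have m3 := hfm.indicator (hZm (z'.1 + 1 / 2 ^ lev z'))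
          have m12 : Measurable (fun z => (Z z'.1).indicator f z +
            (Z (z'.1 - 1 / 2 ^ lev z')).indicator f z) := m1.add m2
          have m123 : Measurable (fun z => (Z z'.1).indicator f z +
            (Z (z'.1 - 1 / 2 ^ lev z')).indicator f z +
            (Z (z'.1 + 1 / 2 ^ lev z')).indicator f z) := m12.add m3
          rw [lintegral_add_left (m123.const_mul _), lintegral_const_mul _ m123,
            lintegral_add_left m12, lintegral_add_left m1,
            lintegral_indicator (hZm _), lintegral_indicator (hZm _), lintegral_indicator (hZm _),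
            lintegral_const_mul _ (measurable_const.indicator hOm), lintegral_indicator hOm]
          simp
      _ ≤ ENNReal.ofReal (C * 2 ^ lev z' / (1 + R) ^ M1) *
          (ENNReal.ofReal (4 ^ (a+2) * δ * (1/2) ^ (lev z')) +
          ENNReal.ofReal (4 ^ (a+2) * δ * (1/2) ^ (lev z')) +
          ENNReal.ofReal (4 ^ (a+2) * δ * (1/2) ^ (lev z'))) +
          ENNReal.ofReal (C * 2 ^ lev z') * ENNReal.ofReal (k / 2 ^ lev z') := by
          gcongr <;> exact hps _
      _ ≤ ENNReal.ofReal (3 * (C * 4 ^ (a+2)) * (k + δ')) := by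
          rw [← ENNReal.ofReal_add (by positivity) (by positivity),
            ← ENNReal.ofReal_add (by positivity) (by positivity),
            ← ENNReal.ofReal_mul (by positivity), ← ENNReal.ofReal_mul (by positivity),
            ← ENNReal.ofReal_add (by positivity) (by positivity)]
          apply ENNReal.ofReal_le_ofReal
          have e3 : (2:ℝ) ^ lev z' * (1/2) ^ lev z' = 1 := by
            rw [← mul_pow]; norm_num
          have e4 : C * 2 ^ lev z' / (1 + R) ^ M1 * (4 ^ (a+2) * δ * (1/2) ^ (lev z') +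
              4 ^ (a+2) * δ * (1/2) ^ (lev z') + 4 ^ (a+2) * δ * (1/2) ^ (lev z')) =
              3 * (C * 4 ^ (a+2)) * δ' := by
            rw [hδ']
            have : C * 2 ^ lev z' / (1 + R) ^ M1 * (4 ^ (a+2) * δ * (1/2) ^ (lev z') +
              4 ^ (a+2) * δ * (1/2) ^ (lev z') + 4 ^ (a+2) * δ * (1/2) ^ (lev z')) =
              3 * (C * 4 ^ (a+2)) * (δ / (1 + R) ^ M1) * ((2:ℝ) ^ lev z' * (1/2) ^ lev z') := by
              ring
            rw [this, e3, mul_one]
          have e5 : C * 2 ^ lev z' * (k / 2 ^ lev z') = C * k := by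
            have : (2:ℝ) ^ lev z' ≠ 0 := by positivity
            field_simp
          rw [e4, e5]
          have e6 : C * k ≤ 3 * (C * 4 ^ (a+2)) * k := by
            have h4 : (1:ℝ) ≤ 4 ^ (a+2) := one_le_pow₀ (by norm_num)
            have h5 : 0 ≤ C * k := by positivity
            nlinarith
          linarith
  have hfin : ∫⁻ ζ, ‖κ.FS u g E n ζ‖ₑ ^ 2 ≤
      ENNReal.ofReal (2 * (3 * (C * 4 ^ (a+2))) * (k + δ') * ∫ z in S, |g z|) := by
    calc ∫⁻ ζ, ‖κ.FS u g E n ζ‖ₑ ^ 2
        = ∫⁻ ζ, ‖∫ z in S, g z * κ.k (lev z) (u z) z ζ‖ₑ ^ 2 := by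
          congr 1; ext ζ; rw [FS_eq κ hu hg hE hd]
      _ ≤ 2 * ∫⁻ z' in S, ‖g z'‖ₑ * ∫⁻ z in S, ‖g z‖ₑ * b z z' := hmain
      _ ≤ 2 * ∫⁻ z' in S, ‖g z'‖ₑ * ENNReal.ofReal (3 * (C * 4 ^ (a+2)) * (k + δ')) := by
          gcongr 2 * ?_
          refine lintegral_mono_ae ?_
          filter_upwards [ae_restrict_mem hSm] with z' hz'
          gcongr
          exact hrow z' hz'
      _ = _ := by
          rw [lintegral_mul_const _ hg.meas.enorm]
          have : ∫⁻ z' in S, ‖g z'‖ₑ = ENNReal.ofReal (∫ z in S, |g z|) := by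
            rw [ofReal_integral_eq_lintegral_ofReal (nice_int hg).integrableOn.abs
              (Filter.Eventually.of_forall fun z => abs_nonneg _)]
            refine lintegral_congr fun z => ?_
            rw [Real.enorm_eq_ofReal_abs]
          rw [this, ← ENNReal.ofReal_mul (integral_nonneg fun z => abs_nonneg _),
            show (2:ℝ≥0∞) = ENNReal.ofReal 2 by simp, ← ENNReal.ofReal_mul (by norm_num)]
          congr 1; ring
  have hRHS : 0 ≤ 2 * (3 * (C * 4 ^ (a+2))) * (k + δ') * ∫ z in S, |g z| := by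
    have : 0 ≤ ∫ z in S, |g z| := integral_nonneg fun z => abs_nonneg _
    positivity
  by_cases hi : Integrable (fun ζ => (κ.FS u g E n ζ) ^ 2)
  · have : ENNReal.ofReal (∫ ζ, (κ.FS u g E n ζ) ^ 2) = ∫⁻ ζ, ‖κ.FS u g E n ζ‖ₑ ^ 2 := by
      rw [ofReal_integral_eq_lintegral_ofReal hi (Filter.Eventually.of_forall fun z => sq_nonneg _)]
      refine lintegral_congr fun s => ?_
      rw [← enorm_pow, Real.enorm_eq_ofReal (sq_nonneg _)]
    rw [← this] at hfin
    exact (ENNReal.ofReal_le_ofReal_iff hRHS).1 hfin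
  · rw [integral_undef hi]; exact hRHS

end Vale.Agent.P112.H310
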