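import Vale.Agent.P112.H310.Omega

/-!
P112 / H310: packing of the tubes of one generation.
-/

namespace Vale.Agent.P112.H310

open MeasureTheory Set
open scoped ENNReal BigOperators

theorem left_mem_D (k : ℕ) (m : ℤ) : ((m : ℝ) / 2 ^ k) ∈ D k m := by
  rw [D, Set.mem_Ico]
  refine ⟨le_rfl, ?_⟩
  gcongr
  linarith

theorem D_left_sub (k : ℕ) (m : ℤ) : D (k + 1) (2 * m) ⊆ D k m := by
  rw [D_split k m]; exact Set.subset_union_left

theorem D_right_sub (k : ℕ) (m : ℤ) : D (k + 1) (2 * m + 1) ⊆ D k m := by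
  rw [D_split k m]; exact Set.subset_union_right

namespace Sys

variable {ι : Type*} (S : Sys ι)

open Classical in
/-- first generation: tubes not swallowed by the exceptional set -/
noncomputable def G (T : Finset ι) : Finset ι := T.filter (fun j => ¬ S.R j ⊆ S.Om T)

theorem mem_G {T : Finset ι} {j : ι} : j ∈ S.G T ↔ j ∈ T ∧ ¬ S.R j ⊆ S.Om T := by
  classical
  unfold G; rw [Finset.mem_filter]

open Classical in
/-- the class restricted to the first generation -/
noncomputable def clG (T : Finset ι) (i : ι) (n : ℤ) : Finset ι :=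
  (S.cls T i n).filter (fun j => ¬ S.R j ⊆ S.Om T)

theorem mem_clG {T : Finset ι} {i j : ι} {n : ℤ} :
    j ∈ S.clG T i n ↔ j ∈ S.cls T i n ∧ ¬ S.R j ⊆ S.Om T := by
  classical
  unfold clG; rw [Finset.mem_filter]

/-- the shadow of the class -/
def Y (T : Finset ι) (i : ι) (n : ℤ) : Set ℝ := ⋃ j ∈ S.clG T i n, S.I j

theorem Y_meas (T : Finset ι) (i : ι) (n : ℤ) : MeasurableSet (S.Y T i n) :=
  Finset.measurableSet_biUnion _ (fun _ _ => measurableSet_D _ _)

theorem vrYD {T : Finset ι} {i j : ι} {n : ℤ} {k : ℕ} {m : ℤ} (hj : j ∈ S.clG T i n)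
    (hX : S.X i j ∈ D k m) (hk : S.k j ≤ k) :
    volume.real (S.Y T i n ∩ D k m) = (2 : ℝ)⁻¹ ^ k := by
  have hj' := (S.mem_clG.1 hj).1
  rw [mem_cls] at hj'
  have hsub : D k m ⊆ S.I j := D_subset_of_mem hk hX (S.X_mem hj'.2.2.1).2
  have : S.Y T i n ∩ D k m = D k m := by
    apply Set.inter_eq_right.2
    intro x hx
    unfold Y
    simp only [Set.mem_iUnion]
    exact ⟨j, hj, hsub hx⟩
  rw [this, vr_D]

/-- in the first generation a saturated interval forbids shorter tubes -/
theorem k_le_of_sat {T : Finset ι} {i j : ι} {n : ℤ} {k : ℕ} {m : ℤ} (hi : i ∈ T)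
    (hj : j ∈ S.clG T i n) (hX : S.X i j ∈ D k m) (hs : S.Sat T i n k m) : S.k j ≤ k := by
  by_contra hc
  have hj' := S.mem_clG.1 hj
  exact hj'.2 (S.R_sub_Om hi hj'.1 hX hs (not_le.1 hc))

open Classical in
/-- the saturated case -/
theorem sat_case (T : Finset ι) {i : ι} (hi : i ∈ T) (n : ℤ) (k : ℕ) (m : ℤ)
    (hsub : D k m ⊆ S.I i)
    (hns : ∀ k' m', S.k i ≤ k' → k' < k → D k m ⊆ D k' m' → ¬ S.Sat T i n k' m')
    (hs : S.Sat T i n k m) :
    S.a n * (((S.clG T i n).filter (fun j => S.X i j ∈ D k m)).card : ℝ) ≤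
        672 * S.κ * volume.real (S.Y T i n ∩ D k m) := by
  have hκ := S.κ_pos
  have ha := S.a_pos n
  set P := (S.clG T i n).filter (fun j => S.X i j ∈ D k m) with hP
  by_cases hne : P = ∅
  · rw [hne]; simp only [Finset.card_empty, Nat.cast_zero, mul_zero]
    exact mul_nonneg (by positivity) measureReal_nonneg
  obtain ⟨j0, hj0⟩ := Finset.nonempty_iff_ne_empty.2 hne
  have hmem : ∀ j ∈ P, j ∈ S.clG T i n ∧ S.X i j ∈ D k m := by
    intro j hj; rw [hP, Finset.mem_filter] at hj; exact hj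
  rw [S.vrYD (hmem j0 hj0).1 (hmem j0 hj0).2 (S.k_le_of_sat hi (hmem j0 hj0).1 (hmem j0 hj0).2 hs)]
  -- split
  set P1 := P.filter (fun j => S.k j = k) with hP1
  set P2 := P.filter (fun j => ¬ S.k j = k) with hP2
  have hcard : (P.card : ℝ) = P1.card + P2.card := by
    rw [hP1, hP2]; exact_mod_cast (Finset.card_filter_add_card_filter_not (s := P) (fun j => S.k j = k)).symm
  have h1 : S.a n * (P1.card : ℝ) ≤ 32 * S.κ * (2 : ℝ)⁻¹ ^ k := by
    refine (S.lp T i n k m P1 ?_).trans ?_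
    · intro j hj
      rw [hP1, Finset.mem_filter] at hj
      exact ⟨(S.mem_clG.1 (hmem j hj.1).1).1, hj.2, (hmem j hj.1).2⟩
    · have : volume.real (S.En i n ∩ D k m) ≤ (2 : ℝ)⁻¹ ^ k := by
        rw [← vr_D k m]
        exact measureReal_mono Set.inter_subset_right (vol_D_ne_top k m)
      exact mul_le_mul_of_nonneg_left this (by positivity)
  have h2 : S.a n * (P2.card : ℝ) ≤ 640 * S.κ * (2 : ℝ)⁻¹ ^ k := by
    by_cases hne2 : P2 = ∅
    · rw [hne2]; simp only [Finset.card_empty, Nat.cast_zero, mul_zero]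
      positivity
    obtain ⟨j1, hj1⟩ := Finset.nonempty_iff_ne_empty.2 hne2
    rw [hP2, Finset.mem_filter] at hj1
    have hj1c := S.mem_cls.1 ((S.mem_clG.1 (hmem j1 hj1.1).1).1)
    have hk1 : S.k j1 < k :=
      lt_of_le_of_ne (S.k_le_of_sat hi (hmem j1 hj1.1).1 (hmem j1 hj1.1).2 hs) hj1.2
    obtain ⟨k', rfl⟩ : ∃ k', k = k' + 1 := ⟨k - 1, by omega⟩
    set m' : ℤ := ⌊S.X i j1 * 2 ^ k'⌋ with hm'
    have hX' : S.X i j1 ∈ D k' m' := mem_D.2 rfl
    have hsub' : D (k' + 1) m ⊆ D k' m' := D_subset_of_mem (by omega) (hmem j1 hj1.1).2 hX'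
    have hns' := hns k' m' (by omega) (by omega) hsub'
    unfold Sat at hns'
    rw [not_lt] at hns'
    have hsubP : P2 ⊆ (S.cls T i n).filter (fun j => S.k j ≤ k' ∧ S.X i j ∈ D k' m') := by
      intro j hj
      rw [hP2, Finset.mem_filter] at hj
      rw [Finset.mem_filter]
      have := S.k_le_of_sat hi (hmem j hj.1).1 (hmem j hj.1).2 hs
      refine ⟨(S.mem_clG.1 (hmem j hj.1).1).1, by have := hj.2; omega, hsub' (hmem j hj.1).2⟩
    have hc : (P2.card : ℝ) ≤
        (((S.cls T i n).filter (fun j => S.k j ≤ k' ∧ S.X i j ∈ D k' m')).card : ℝ) := by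
      exact_mod_cast Finset.card_le_card hsubP
    calc S.a n * (P2.card : ℝ) ≤ _ := mul_le_mul_of_nonneg_left hc ha.le
      _ ≤ 320 * S.κ * (2 : ℝ)⁻¹ ^ k' := hns'
      _ = 640 * S.κ * (2 : ℝ)⁻¹ ^ (k' + 1) := by rw [pow_succ]; ring
  rw [hcard, mul_add]
  linarith

open Classical in
/-- the induction over dyadic intervals -/
theorem dyadic (T : Finset ι) {i : ι} (hi : i ∈ T) (n : ℤ) :
    ∀ (d k : ℕ) (m : ℤ), k + d = S.K T → D k m ⊆ S.I i →
      (∀ k' m', S.k i ≤ k' → k' < k → D k m ⊆ D k' m' → ¬ S.Sat T i n k' m') →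
      S.a n * (((S.clG T i n).filter (fun j => S.X i j ∈ D k m)).card : ℝ) ≤
        672 * S.κ * volume.real (S.Y T i n ∩ D k m) := by
  have hκ := S.κ_pos
  have ha := S.a_pos n
  intro d
  induction d with
  | zero =>
    intro k m hkd hsub hns
    by_cases hs : S.Sat T i n k m
    · exact S.sat_case T hi n k m hsub hns hs
    set P := (S.clG T i n).filter (fun j => S.X i j ∈ D k m) with hP
    by_cases hne : P = ∅
    · rw [hne]; simp only [Finset.card_empty, Nat.cast_zero, mul_zero]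
      exact mul_nonneg (by positivity) measureReal_nonneg
    obtain ⟨j0, hj0⟩ := Finset.nonempty_iff_ne_empty.2 hne
    have hmem : ∀ j ∈ P, j ∈ S.clG T i n ∧ S.X i j ∈ D k m := by
      intro j hj; rw [hP, Finset.mem_filter] at hj; exact hj
    have hkk : ∀ j ∈ P, S.k j ≤ k := by
      intro j hj
      have h1 := S.mem_cls.1 ((S.mem_clG.1 (hmem j hj).1).1)
      have h2 := S.le_K h1.1
      omega
    rw [S.vrYD (hmem j0 hj0).1 (hmem j0 hj0).2 (hkk j0 hj0)]
    unfold Sat at hs
    rw [not_lt] at hs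
    have hsubP : P ⊆ (S.cls T i n).filter (fun j => S.k j ≤ k ∧ S.X i j ∈ D k m) := by
      intro j hj
      rw [Finset.mem_filter]
      exact ⟨(S.mem_clG.1 (hmem j hj).1).1, hkk j hj, (hmem j hj).2⟩
    have hc : (P.card : ℝ) ≤
        (((S.cls T i n).filter (fun j => S.k j ≤ k ∧ S.X i j ∈ D k m)).card : ℝ) := by
      exact_mod_cast Finset.card_le_card hsubP
    have hp : (0 : ℝ) < (2 : ℝ)⁻¹ ^ k := by positivity
    calc S.a n * (P.card : ℝ) ≤ _ := mul_le_mul_of_nonneg_left hc ha.le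
      _ ≤ 320 * S.κ * (2 : ℝ)⁻¹ ^ k := hs
      _ ≤ 672 * S.κ * (2 : ℝ)⁻¹ ^ k := by
          have : 0 < S.κ * (2 : ℝ)⁻¹ ^ k := by positivity
          nlinarith
  | succ d ih =>
    intro k m hkd hsub hns
    by_cases hs : S.Sat T i n k m
    · exact S.sat_case T hi n k m hsub hns hs
    have key : ∀ m1 : ℤ, D (k + 1) m1 ⊆ D k m → ∀ k' m', S.k i ≤ k' → k' < k + 1 →
        D (k + 1) m1 ⊆ D k' m' → ¬ S.Sat T i n k' m' := by
      intro m1 h1 k' m' hik hk' hD
      have hx := left_mem_D (k + 1) m1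
      rcases Nat.lt_or_eq_of_le (Nat.lt_succ_iff.1 hk') with h | h
      · exact hns k' m' hik h (D_subset_of_mem h.le (h1 hx) (hD hx))
      · subst h
        have e1 := mem_D.1 (h1 hx)
        have e2 := mem_D.1 (hD hx)
        rw [← e2, e1]; exact hs
    have hl := ih (k + 1) (2 * m) (by omega) ((D_left_sub k m).trans hsub)
      (key _ (D_left_sub k m))
    have hr := ih (k + 1) (2 * m + 1) (by omega) ((D_right_sub k m).trans hsub)
      (key _ (D_right_sub k m))
    have hdisj : Disjoint (D (k + 1) (2 * m)) (D (k + 1) (2 * m + 1)) :=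
      D_disj _ (by omega)
    have hcard : ((S.clG T i n).filter (fun j => S.X i j ∈ D k m)).card =
        ((S.clG T i n).filter (fun j => S.X i j ∈ D (k + 1) (2 * m))).card +
        ((S.clG T i n).filter (fun j => S.X i j ∈ D (k + 1) (2 * m + 1))).card := by
      rw [← Finset.card_union_of_disjoint]
      · congr 1
        rw [← Finset.filter_or]
        apply Finset.filter_congr
        intro j _
        rw [D_split k m]; rfl
      · rw [Finset.disjoint_filter]
        intro j _ h1 h2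
        exact Set.disjoint_left.1 hdisj h1 h2
    have hvol : volume.real (S.Y T i n ∩ D k m) =
        volume.real (S.Y T i n ∩ D (k + 1) (2 * m)) +
        volume.real (S.Y T i n ∩ D (k + 1) (2 * m + 1)) := by
      rw [D_split k m, Set.inter_union_distrib_left]
      apply measureReal_union
      · exact hdisj.mono Set.inter_subset_right Set.inter_subset_right
      · exact (S.Y_meas T i n).inter (measurableSet_D _ _)
      · exact ne_top_of_le_ne_top (vol_D_ne_top _ _) (measure_mono Set.inter_subset_right)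
      · exact ne_top_of_le_ne_top (vol_D_ne_top _ _) (measure_mono Set.inter_subset_right)
    rw [hcard, hvol]
    push_cast
    rw [mul_add, mul_add]
    exact add_le_add hl hr

/-- count of one class by the shadow -/
theorem clG_card (T : Finset ι) {i : ι} (hi : i ∈ T) (n : ℤ) :
    S.a n * ((S.clG T i n).card : ℝ) ≤ 672 * S.κ * volume.real (S.Y T i n) := by
  classical
  have h := S.dyadic T hi n (S.K T - S.k i) (S.k i) (S.m i)
    (by have := S.le_K hi; omega) (le_refl _) (fun k' m' h1 h2 => absurd h1 (by omega))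
  have e1 : (S.clG T i n).filter (fun j => S.X i j ∈ D (S.k i) (S.m i)) = S.clG T i n := by
    apply Finset.filter_true_of_mem
    intro j hj
    exact (S.X_mem (S.mem_cls.1 (S.mem_clG.1 hj).1).2.2.1).1
  rw [e1] at h
  have hYsub : S.Y T i n ⊆ D (S.k i) (S.m i) := by
    intro x hx
    unfold Y at hx
    simp only [Set.mem_iUnion] at hx
    obtain ⟨j, hj, hx⟩ := hx
    have hc := S.mem_cls.1 (S.mem_clG.1 hj).1
    exact S.I_sub hc.2.2.1 hc.2.1 hx
  rwa [Set.inter_eq_left.2 hYsub] at h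

end Sys

end Vale.Agent.P112.H310
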