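import Vale.Agent.P112.H310.Basic

/-!
P112 / H310: systems of tubes (the hypotheses of the Kakeya theorem), geometry of two tubes.
-/

namespace Vale.Agent.P112.H310

open MeasureTheory Set
open scoped ENNReal BigOperators

/-- A system of tubes with `E`-sets, adapted to a field `u` which is `ε`-Lipschitz in `y`. -/
structure Sys (ι : Type*) where
  w : ℝ
  A : ℝ
  M : ℝ
  δ : ℝ
  ε : ℝ
  u : ℝ → ℝ → ℝ
  k : ι → ℕ
  m : ι → ℤ
  s : ι → ℝ
  b : ι → ℝ
  E : ι → Set (ℝ × ℝ)
  w_pos : 0 < w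
  one_le_A : 1 ≤ A
  M_pos : 0 < M
  δ_pos : 0 < δ
  ε_nonneg : 0 ≤ ε
  ε_le : ε ≤ 1 / 16
  u_meas : Measurable (Function.uncurry u)
  u_lip : ∀ x y y', |u x y - u x y'| ≤ ε * |y - y'|
  E_meas : ∀ i, MeasurableSet (E i)
  E_sub : ∀ i, E i ⊆ Reg (D (k i) (m i)) (fun x => b i + s i * x) w
  E_slope : ∀ i, ∀ p ∈ E i, |u p.1 p.2 - s i| ≤ A * w / (2 : ℝ)⁻¹ ^ k i
  E_dens : ∀ i, δ * volume.real (Reg (D (k i) (m i)) (fun x => b i + s i * x) w)
      ≤ volume.real (E i)
  E_ovl : ∀ (T : Finset ι) (p : ℝ × ℝ), ∑ i ∈ T, (E i).indicator (fun _ => (1 : ℝ)) p ≤ M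

namespace Sys

variable {ι : Type*} (S : Sys ι)

/-- length of tube `i` -/
noncomputable def l (i : ι) : ℝ := (2 : ℝ)⁻¹ ^ S.k i

/-- base interval of tube `i` -/
def I (i : ι) : Set ℝ := D (S.k i) (S.m i)

/-- center line of tube `i` -/
def line (i : ι) (x : ℝ) : ℝ := S.b i + S.s i * x

/-- the tube -/
def R (i : ι) : Set (ℝ × ℝ) := Reg (S.I i) (S.line i) S.w

theorem line_meas (i : ι) : Measurable (S.line i) := by
  unfold line; fun_prop

theorem l_pos (i : ι) : 0 < S.l i := by unfold l; positivity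

theorem l_le_one (i : ι) : S.l i ≤ 1 := by
  unfold l; exact pow_le_one₀ (by norm_num) (by norm_num)

theorem volR_ne_top {X : Set ℝ} {f : ℝ → ℝ} (hX : MeasurableSet X) (hX' : volume X ≠ ∞)
    (hf : Measurable f) (r : ℝ) : volume (Reg X f r) ≠ ∞ := by
  rw [volume_Reg hX hf]
  exact ENNReal.mul_ne_top hX' ENNReal.ofReal_ne_top

theorem vr_Reg {X : Set ℝ} {f : ℝ → ℝ} (hX : MeasurableSet X)
    (hf : Measurable f) {r : ℝ} (hr : 0 ≤ r) :
    volume.real (Reg X f r) = volume.real X * (2 * r) := by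
  rw [Measure.real, volume_Reg hX hf, ENNReal.toReal_mul, ENNReal.toReal_ofReal (by linarith)]
  rfl

theorem vr_D (k : ℕ) (m : ℤ) : volume.real (D k m) = (2 : ℝ)⁻¹ ^ k := by
  rw [Measure.real, volume_D, ENNReal.toReal_ofReal (by positivity)]

theorem vr_I (i : ι) : volume.real (S.I i) = S.l i := vr_D _ _

theorem vol_I_ne_top (i : ι) : volume (S.I i) ≠ ∞ := by
  rw [I, volume_D]; exact ENNReal.ofReal_ne_top

theorem vol_D_ne_top (k : ℕ) (m : ℤ) : volume (D k m) ≠ ∞ := by
  rw [volume_D]; exact ENNReal.ofReal_ne_top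

theorem vr_R (i : ι) : volume.real (S.R i) = S.l i * (2 * S.w) := by
  rw [R, vr_Reg (show MeasurableSet (S.I i) from measurableSet_D _ _) (S.line_meas i) S.w_pos.le, vr_I]

theorem vol_R_ne_top (i : ι) : volume (S.R i) ≠ ∞ :=
  volR_ne_top (measurableSet_D _ _) (S.vol_I_ne_top i) (S.line_meas i) _

theorem R_meas (i : ι) : MeasurableSet (S.R i) :=
  measurableSet_Reg (measurableSet_D _ _) (S.line_meas i) _

theorem dens (i : ι) : S.δ * (S.l i * (2 * S.w)) ≤ volume.real (S.E i) := by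
  rw [← S.vr_R]; exact S.E_dens i

theorem E_sub_R (i : ι) : S.E i ⊆ S.R i := S.E_sub i

/-- the total mass of `E`-sets contained in a set -/
theorem sum_E_le (T : Finset ι) {U : Set (ℝ × ℝ)} (hU' : volume U ≠ ∞)
    (h : ∀ i ∈ T, S.E i ⊆ U) : ∑ i ∈ T, volume.real (S.E i) ≤ S.M * volume.real U := by
  have h1 : ∑ i ∈ T, volume.real (S.E i) =
      ∫ p in U, ∑ i ∈ T, (S.E i).indicator (fun _ => (1 : ℝ)) p := by
    rw [integral_finsetSum]
    · apply Finset.sum_congr rfl
      intro i hi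
      rw [integral_indicator (S.E_meas i), Measure.restrict_restrict (S.E_meas i),
        Set.inter_eq_left.2 (h i hi)]
      simp
    · intro i _
      apply Integrable.indicator _ (S.E_meas i)
      exact (integrableOn_const hU' (by simp))
  rw [h1]
  have h2 : ∫ p in U, ∑ i ∈ T, (S.E i).indicator (fun _ => (1 : ℝ)) p ≤ ∫ p in U, S.M := by
    apply integral_mono
    · apply integrable_finsetSum
      intro i _
      apply Integrable.indicator _ (S.E_meas i)
      exact (integrableOn_const hU' (by simp))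
    · exact (integrableOn_const hU' (by simp))
    · intro p
      exact S.E_ovl T p
  refine h2.trans (le_of_eq ?_)
  simp [mul_comm]

/-- slope difference -/
def θ (i j : ι) : ℝ := |S.s j - S.s i|

open Classical in
/-- a point where the tubes `i`, `j` meet -/
noncomputable def X (i j : ι) : ℝ :=
  if h : (S.R i ∩ S.R j).Nonempty then h.some.1 else 0

theorem X_mem {i j : ι} (h : (S.R i ∩ S.R j).Nonempty) : S.X i j ∈ S.I i ∧ S.X i j ∈ S.I j := by
  rw [X, dif_pos h]
  exact ⟨h.some_mem.1.1, h.some_mem.2.1⟩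

theorem X_line {i j : ι} (h : (S.R i ∩ S.R j).Nonempty) :
    |S.line j (S.X i j) - S.line i (S.X i j)| ≤ 2 * S.w := by
  rw [X, dif_pos h]
  have h1 := h.some_mem.1.2
  have h2 := h.some_mem.2.2
  rw [abs_le] at *
  constructor <;> linarith [h1.1, h1.2, h2.1, h2.2]

theorem line_sub (i j : ι) (x x' : ℝ) :
    S.line j x - S.line i x = (S.line j x' - S.line i x') + (S.s j - S.s i) * (x - x') := by
  unfold line; ring

/-- distance of the two lines over a dyadic interval containing the crossing point -/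
theorem line_dist {i j : ι} (h : (S.R i ∩ S.R j).Nonempty) {x r : ℝ}
    (hx : |x - S.X i j| ≤ r) : |S.line j x - S.line i x| ≤ 2 * S.w + S.θ i j * r := by
  rw [S.line_sub i j x (S.X i j)]
  refine (abs_add_le _ _).trans (add_le_add (S.X_line h) ?_)
  rw [abs_mul]
  exact mul_le_mul_of_nonneg_left hx (abs_nonneg _)

/-- if `j` is shorter than `i` and they meet, then `I j ⊆ I i` -/
theorem I_sub {i j : ι} (h : (S.R i ∩ S.R j).Nonempty) (hk : S.k i ≤ S.k j) : S.I j ⊆ S.I i :=
  D_subset_of_mem hk (S.X_mem h).2 (S.X_mem h).1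

/-- the points of `R j` are close to the line of `i` -/
theorem dist_of_mem_R {i j : ι} (h : (S.R i ∩ S.R j).Nonempty) {p : ℝ × ℝ} (hp : p ∈ S.R j) :
    |p.2 - S.line i p.1| ≤ 3 * S.w + S.θ i j * S.l j := by
  have h1 : |S.line j p.1 - S.line i p.1| ≤ 2 * S.w + S.θ i j * S.l j :=
    S.line_dist h (abs_sub_le_of_mem_D hp.1 (S.X_mem h).2)
  have h2 : |p.2 - S.line j p.1| ≤ S.w := hp.2
  rw [abs_le] at *
  constructor <;> linarith [h1.1, h1.2, h2.1, h2.2]

/-- transversality -/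
def Trans (i j : ι) : Prop := 8 * S.A * S.w < S.θ i j * S.l j

/-- the slice of directions at distance about `2^n` from the slope of `i`, seen along `i` -/
def En (i : ι) (n : ℤ) : Set ℝ :=
  {x | x ∈ S.I i ∧ 3 / 4 * (2 : ℝ) ^ n ≤ |S.u x (S.line i x) - S.s i| ∧
    |S.u x (S.line i x) - S.s i| < 5 / 2 * (2 : ℝ) ^ n}

theorem En_meas (i : ι) (n : ℤ) : MeasurableSet (S.En i n) := by
  have hm : Measurable (fun x => |S.u x (S.line i x) - S.s i|) := by
    have : Measurable (fun x => S.u x (S.line i x)) :=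
      S.u_meas.comp (measurable_id.prodMk (S.line_meas i))
    exact (this.sub measurable_const).abs
  exact (measurableSet_D _ _).inter
    ((measurableSet_le measurable_const hm).inter (measurableSet_lt hm measurable_const))

theorem θ_pos {i j : ι} (h : S.Trans i j) : 0 < S.θ i j := by
  unfold Trans at h
  have h1 := S.w_pos
  have h2 := S.one_le_A
  have h3 : 0 < 8 * S.A * S.w := by positivity
  by_contra hc
  have := mul_nonpos_of_nonpos_of_nonneg (not_lt.1 hc) (S.l_pos j).le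
  linarith

/-- the projection of `E j` lies in `En i n` -/
theorem proj_E {i j : ι} {n : ℤ} (h : (S.R i ∩ S.R j).Nonempty) (hk : S.k i ≤ S.k j)
    (ht : S.Trans i j) (hn : Int.log 2 (S.θ i j) = n) {p : ℝ × ℝ} (hp : p ∈ S.E j) :
    p.1 ∈ S.En i n := by
  have hpR := S.E_sub_R j hp
  have hθ := S.θ_pos ht
  have h1 : |S.u p.1 p.2 - S.s j| ≤ S.A * S.w / S.l j := S.E_slope j p hp
  have h2 := S.dist_of_mem_R h hpR
  have h3 : |S.u p.1 (S.line i p.1) - S.u p.1 p.2| ≤ S.ε * (3 * S.w + S.θ i j * S.l j) := by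
    refine (S.u_lip _ _ _).trans (mul_le_mul_of_nonneg_left ?_ S.ε_nonneg)
    rw [abs_sub_comm]; exact h2
  have hl := S.l_pos j
  have hl1 := S.l_le_one j
  have hA := S.one_le_A
  have hw := S.w_pos
  have h4 : S.A * S.w / S.l j ≤ S.θ i j / 8 := by
    rw [div_le_iff₀ hl]
    unfold Trans at ht
    nlinarith
  have h5 : S.w ≤ S.θ i j / 8 := by
    unfold Trans at ht
    have a1 : S.θ i j * S.l j ≤ S.θ i j * 1 := mul_le_mul_of_nonneg_left hl1 hθ.le
    have a2 : S.w ≤ S.A * S.w := by nlinarith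
    nlinarith
  have h6 : S.ε * (3 * S.w + S.θ i j * S.l j) ≤ S.θ i j * (11 / 128) := by
    have b1 : 3 * S.w + S.θ i j * S.l j ≤ S.θ i j * (11 / 8) := by nlinarith
    have b2 : 0 ≤ 3 * S.w + S.θ i j * S.l j := by positivity
    calc S.ε * (3 * S.w + S.θ i j * S.l j) ≤ (1 / 16) * (S.θ i j * (11 / 8)) :=
          mul_le_mul S.ε_le b1 b2 (by norm_num)
      _ = S.θ i j * (11 / 128) := by ring
  have h7 : |S.u p.1 (S.line i p.1) - S.s j| ≤ S.θ i j * (27 / 128) := by
    have := abs_sub_le (S.u p.1 (S.line i p.1)) (S.u p.1 p.2) (S.s j)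
    linarith
  have hlow : (2 : ℝ) ^ n ≤ S.θ i j := by
    rw [← hn]; exact_mod_cast Int.zpow_log_le_self (by norm_num) hθ
  have hup : S.θ i j < (2 : ℝ) ^ (n + 1) := by
    rw [← hn]; exact_mod_cast Int.lt_zpow_succ_log_self (b := 2) (by norm_num) (S.θ i j)
  have hup' : S.θ i j < 2 * (2 : ℝ) ^ n := by
    rw [zpow_add₀ (by norm_num)] at hup; linarith
  refine ⟨S.I_sub h hk hpR.1, ?_, ?_⟩
  · have : S.θ i j ≤ |S.u p.1 (S.line i p.1) - S.s i| + |S.u p.1 (S.line i p.1) - S.s j| := by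
      unfold θ
      have := abs_sub_le (S.s j) (S.u p.1 (S.line i p.1)) (S.s i)
      rw [abs_sub_comm (S.s j) (S.u p.1 (S.line i p.1))] at this
      linarith
    linarith
  · have : |S.u p.1 (S.line i p.1) - S.s i| ≤ |S.u p.1 (S.line i p.1) - S.s j| + S.θ i j :=
      abs_sub_le _ _ _
    linarith

/-- overlap of two transversal tubes -/
theorem overlap {i j : ι} {n : ℤ} (hθ : 0 < S.θ i j) (hn : Int.log 2 (S.θ i j) = n) :
    volume.real (S.R i ∩ S.R j) ≤ S.w * (8 * S.w / (2 : ℝ) ^ n) := by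
  have hne : S.s j - S.s i ≠ 0 := by
    intro h0; unfold θ at hθ; rw [h0] at hθ; simp at hθ
  set x0 : ℝ := -(S.b j - S.b i) / (S.s j - S.s i) with hx0
  have hsub : S.R i ∩ S.R j ⊆
      Reg (Metric.closedBall x0 (2 * S.w / S.θ i j)) (S.line i) S.w := by
    rintro p ⟨h1, h2⟩
    refine ⟨?_, h1.2⟩
    have h3 : |S.line j p.1 - S.line i p.1| ≤ 2 * S.w := by
      have e1 := h1.2
      have e2 := h2.2
      rw [abs_le] at *
      constructor <;> linarith [e1.1, e1.2, e2.1, e2.2]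
    rw [Metric.mem_closedBall, Real.dist_eq, le_div_iff₀ hθ, θ, ← abs_mul]
    have : (p.1 - x0) * (S.s j - S.s i) = S.line j p.1 - S.line i p.1 := by
      rw [hx0]; unfold line; field_simp; ring
    rw [this]; exact h3
  have hfin : volume (Reg (Metric.closedBall x0 (2 * S.w / S.θ i j)) (S.line i) S.w) ≠ ∞ :=
    volR_ne_top measurableSet_closedBall (by rw [Real.volume_closedBall]; exact ENNReal.ofReal_ne_top)
      (S.line_meas i) _
  refine (measureReal_mono hsub hfin).trans ?_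
  have hw := S.w_pos
  rw [vr_Reg measurableSet_closedBall (S.line_meas i) S.w_pos.le, Measure.real,
    Real.volume_closedBall, ENNReal.toReal_ofReal (by positivity)]
  have hlow : (2 : ℝ) ^ n ≤ S.θ i j := by
    rw [← hn]; exact_mod_cast Int.zpow_log_le_self (by norm_num) hθ
  have h2n : (0 : ℝ) < (2 : ℝ) ^ n := by positivity
  have : 2 * (2 * S.w / S.θ i j) * (2 * S.w) = S.w * (8 * S.w / S.θ i j) := by ring
  rw [this]
  gcongr

end Sys

end Vale.Agent.P112.H310
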